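import Vale.Agent.P097.FD.Defs

/-! # P097 / FD : entire approximations of tables with a strip, three lines theorem -/

set_option linter.all false

namespace Vale.Agent.P097.FD

open Vale.Agent.P097 Vale.Agent.P097.Reg
open Complex Set
open scoped ComplexConjugate ContDiff Topology

theorem mem_strip {β : ℝ} {z : ℂ} : z ∈ strip β ↔ |z.im| < β := Iff.rfl

theorem real_mem {β : ℝ} (hβ : 0 < β) (x : ℝ) : (x : ℂ) ∈ strip β := by
  rw [mem_strip, ofReal_im, abs_zero]; exact hβ

/-- identity theorem on a strip -/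
theorem strip_ident {β : ℝ} (hβ : 0 < β) {F G : ℂ → ℂ} (hF : DifferentiableOn ℂ F (strip β))
    (hG : DifferentiableOn ℂ G (strip β)) (h : ∀ x : ℝ, F x = G x) : ∀ z ∈ strip β, F z = G z := by
  have hO := U6.isOpen_strip β
  have aF : AnalyticOnNhd ℂ F (strip β) := hF.analyticOnNhd hO
  have aG : AnalyticOnNhd ℂ G (strip β) := hG.analyticOnNhd hO
  have hc : IsPreconnected (strip β) := (U6.convex_strip β).isPreconnected
  have h0 : (0 : ℂ) ∈ strip β := by simpa using real_mem hβ 0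
  refine aF.eqOn_of_preconnected_of_frequently_eq aG hc h0 ?_
  have ht : Filter.Tendsto (fun x : ℝ => (x : ℂ)) (𝓝[≠] 0) (𝓝[≠] 0) := by
    refine tendsto_nhdsWithin_of_tendsto_nhds_of_eventually_within _ ?_ ?_
    · have : Filter.Tendsto (fun x : ℝ => (x : ℂ)) (𝓝 0) (𝓝 0) := by
        simpa using (continuous_ofReal.tendsto (0 : ℝ))
      exact this.mono_left nhdsWithin_le_nhds
    · filter_upwards [self_mem_nhdsWithin] with x hx
      simpa using hx
  exact ht.frequently (Filter.Eventually.frequently (Filter.Eventually.of_forall h))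

/-- real functions with a holomorphic extension -/
theorem ext_deriv {β : ℝ} (hβ : 0 < β) {H : ℂ → ℂ} (hH : DifferentiableOn ℂ H (strip β))
    {h : ℝ → ℝ} (hh : ∀ x : ℝ, H x = h x) :
    (∀ x : ℝ, HasDerivAt h (deriv H x).re x) ∧ (∀ x : ℝ, deriv H x = deriv h x) := by
  have hO := U6.isOpen_strip β
  have e : h = fun x : ℝ => (H x).re := by
    funext x; rw [hh, ofReal_re]
  have h1 : ∀ x : ℝ, HasDerivAt h (deriv H x).re x := by
    intro x
    have := (hH.differentiableAt (hO.mem_nhds (real_mem hβ x))).hasDerivAt.real_of_complex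
    rw [← e] at this
    exact this
  refine ⟨h1, fun x => ?_⟩
  have h2 : HasDerivAt (fun y : ℝ => H y) (deriv H x) x :=
    (hH.differentiableAt (hO.mem_nhds (real_mem hβ x))).hasDerivAt.comp_ofReal
  have h3 : HasDerivAt (fun y : ℝ => (h y : ℂ)) ((deriv h x : ℝ) : ℂ) x :=
    (h1 x).differentiableAt.hasDerivAt.ofReal_comp
  have e2 : (fun y : ℝ => H y) = fun y : ℝ => (h y : ℂ) := funext hh
  rw [e2] at h2
  exact h2.unique h3

theorem ext_contDiff {β : ℝ} (hβ : 0 < β) {H : ℂ → ℂ} (hH : DifferentiableOn ℂ H (strip β))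
    {h : ℝ → ℝ} (hh : ∀ x : ℝ, H x = h x) : ContDiff ℝ ∞ h := by
  have hO := U6.isOpen_strip β
  have e : h = fun x : ℝ => (H x).re := by
    funext x; rw [hh, ofReal_re]
  rw [contDiff_iff_contDiffAt]
  intro x
  have h1 : AnalyticAt ℂ H (x : ℂ) := hH.analyticAt (hO.mem_nhds (real_mem hβ x))
  have h2 : AnalyticAt ℝ (fun y : ℝ => (H y).re) x := by
    have h3 : AnalyticAt ℝ H ((ofRealCLM : ℝ →L[ℝ] ℂ) x) := h1.restrictScalars
    have h4 : AnalyticAt ℝ (fun y : ℝ => H (ofRealCLM y)) x :=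
      h3.comp (ofRealCLM.analyticAt x)
    exact (reCLM.analyticAt _).comp h4
  rw [e]
  exact h2.contDiffAt

theorem ext_per {β : ℝ} (hβ : 0 < β) {H : ℂ → ℂ} (hH : DifferentiableOn ℂ H (strip β))
    {h : ℝ → ℝ} (hh : ∀ x : ℝ, H x = h x) (hp : ∀ x, h (x + 2 * Real.pi) = h x) :
    ∀ z ∈ strip β, H (z + ((2 * Real.pi : ℝ) : ℂ)) = H z := by
  have h1 : DifferentiableOn ℂ (fun z => H (z + ((2 * Real.pi : ℝ) : ℂ))) (strip β) := by
    intro z hz
    have h2 := hH.differentiableAt ((U6.isOpen_strip β).mem_nhds (U6.add_mem hz (2 * Real.pi)))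
    exact (h2.comp z ((differentiableAt_id).add_const _)).differentiableWithinAt
  refine strip_ident hβ h1 hH (fun x => ?_)
  have : (x : ℂ) + ((2 * Real.pi : ℝ) : ℂ) = ((x + 2 * Real.pi : ℝ) : ℂ) := by push_cast; ring
  rw [this, hh, hh, hp]

/-- Fourier coefficients of a function with a bounded holomorphic extension -/
theorem cf_strip {β M : ℝ} (hβ : 0 < β) {H : ℂ → ℂ} (hH : DifferentiableOn ℂ H (strip β))
    (hb : ∀ z ∈ strip β, ‖H z‖ ≤ M) {h : ℝ → ℝ} (hh : ∀ x : ℝ, H x = h x)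
    (hp : ∀ x, h (x + 2 * Real.pi) = h x) (m : ℤ) :
    ‖R4.cf h m‖ ≤ M * Real.exp (-(β * |(m : ℝ)|)) := by
  have hpi := Real.pi_pos
  have h1 := fc_shift (P := 2 * Real.pi) (by positivity) hβ hH (ext_per hβ hH hh hp) hb m
  have e : fc (2 * Real.pi) (fun x => H x) m = R4.cf h m := by
    unfold fc R4.cf
    congr 1
    refine intervalIntegral.integral_congr fun x _ => ?_
    simp only
    rw [hh]
    congr 2
    push_cast
    have : (Real.pi : ℂ) ≠ 0 := by exact_mod_cast hpi.ne'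
    field_simp
  rw [e] at h1
  refine h1.trans (le_of_eq ?_)
  congr 2
  field_simp

/-- the sums which bound the approximations -/
theorem summable_pow_exp {c : ℝ} (hc : 0 < c) (i : ℕ) :
    Summable fun m : ℤ => |(m : ℝ)| ^ i * Real.exp (-(c * |(m : ℝ)|)) := by
  have h1 : Summable fun n : ℕ => (n : ℝ) ^ i * Real.exp (-(c * (n : ℝ))) := by
    have := Real.summable_pow_mul_exp_neg_nat_mul i hc
    refine this.congr fun n => ?_
    ring_nf
  refine Summable.of_nat_of_neg ?_ ?_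
  · refine h1.congr fun n => ?_
    simp
  · refine h1.congr fun n => ?_
    simp

theorem tp_strip {c : ℤ → ℂ} {M β : ℝ} (hβ : 0 < β)
    (hc : ∀ m, ‖c m‖ ≤ M * Real.exp (-(β * |(m : ℝ)|))) (i n : ℕ) {z : ℂ} (hz : |z.im| ≤ β / 2) :
    ‖R4.tp (fun m => (I * m) ^ i * c m) n z‖ ≤
      M * ∑' m : ℤ, |(m : ℝ)| ^ i * Real.exp (-(β / 2 * |(m : ℝ)|)) := by
  have hM : 0 ≤ M := by
    have h0 := (norm_nonneg _).trans (hc 0)
    simpa using h0
  have hs := summable_pow_exp (c := β / 2) (by positivity) i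
  unfold R4.tp
  calc ‖∑ m ∈ Finset.Icc (-(n : ℤ)) n, (I * m) ^ i * c m * exp (I * m * z)‖
      ≤ ∑ m ∈ Finset.Icc (-(n : ℤ)) n, M * (|(m : ℝ)| ^ i * Real.exp (-(β / 2 * |(m : ℝ)|))) := by
        refine norm_sum_le_of_le _ fun m _ => ?_
        have e1 : ‖I * (m : ℂ)‖ = |(m : ℝ)| := by
          rw [norm_mul, norm_I, one_mul, norm_intCast]
        have e2 : ‖exp (I * m * z)‖ ≤ Real.exp (β / 2 * |(m : ℝ)|) := by
          rw [norm_exp]
          apply Real.exp_le_exp.mpr
          have : (I * m * z).re = -(m * z.im) := by simp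
          rw [this]
          calc -(m * z.im) ≤ |(m : ℝ) * z.im| := neg_le_abs _
            _ = |(m : ℝ)| * |z.im| := abs_mul _ _
            _ ≤ |(m : ℝ)| * (β / 2) := mul_le_mul_of_nonneg_left hz (abs_nonneg _)
            _ = _ := by ring
        rw [norm_mul, norm_mul, norm_pow, e1]
        calc |(m : ℝ)| ^ i * ‖c m‖ * ‖exp (I * m * z)‖
            ≤ |(m : ℝ)| ^ i * (M * Real.exp (-(β * |(m : ℝ)|))) * Real.exp (β / 2 * |(m : ℝ)|) := by
              gcongr
              exact hc m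
          _ = M * (|(m : ℝ)| ^ i *
              (Real.exp (-(β * |(m : ℝ)|)) * Real.exp (β / 2 * |(m : ℝ)|))) := by ring
          _ = _ := by
              rw [← Real.exp_add]
              congr 3
              ring
    _ = M * ∑ m ∈ Finset.Icc (-(n : ℤ)) n,
          (|(m : ℝ)| ^ i * Real.exp (-(β / 2 * |(m : ℝ)|))) := by rw [Finset.mul_sum]
    _ ≤ _ := by
        refine mul_le_mul_of_nonneg_left ?_ hM
        exact hs.sum_le_tsum _ fun m _ => by positivity

/-- uniform entire approximations -/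
theorem approx (β M : ℝ) (hβ : 0 < β) (hM : 1 ≤ M) : ∃ C0 : ℝ, 1 ≤ C0 ∧ ∀ h : ℝ → ℝ,
    StripTab β M h → ∀ ε > 0, ∃ G : ℂ → ℂ, Differentiable ℂ G ∧
      (∀ z, G (conj z) = conj (G z)) ∧ (∀ z, G (z + 2 * Real.pi) = G z) ∧
      (∀ i ≤ 5, ∀ z : ℂ, |z.im| ≤ β / 2 → ‖deriv^[i] G z‖ ≤ C0) ∧
      (∀ i ≤ 2, ∀ x : ℝ, |deriv^[i] h x - (deriv^[i] G x).re| ≤ ε) := by
  have hA : ∀ i : ℕ, 0 ≤ M * ∑' m : ℤ, |(m : ℝ)| ^ i * Real.exp (-(β / 2 * |(m : ℝ)|)) := fun i =>
    mul_nonneg (by linarith) (tsum_nonneg fun m => by positivity)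
  refine ⟨1 + ∑ i ∈ Finset.range 6,
    M * ∑' m : ℤ, |(m : ℝ)| ^ i * Real.exp (-(β / 2 * |(m : ℝ)|)), ?_, ?_⟩
  · have := Finset.sum_nonneg fun i (_ : i ∈ Finset.range 6) => hA i
    linarith only [this]
  rintro h ⟨hp, hr, H, hH, hb, hh⟩ ε hε
  have hs : ContDiff ℝ ∞ h := ext_contDiff hβ hH hh
  choose C hC0 hC using fun i : ℕ => R4.tail hs hp i 1
  have hS : 0 ≤ ∑ i ∈ Finset.range 3, C i := Finset.sum_nonneg fun i _ => hC0 i
  obtain ⟨n, hn⟩ := exists_nat_ge (1 + (∑ i ∈ Finset.range 3, C i) / ε)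
  have hn1 : 1 ≤ n := by
    have : (1 : ℝ) ≤ n := by
      have : 0 ≤ (∑ i ∈ Finset.range 3, C i) / ε := by positivity
      linarith
    exact_mod_cast this
  have hn0 : (0 : ℝ) < n := by exact_mod_cast hn1
  refine ⟨R4.tp (R4.cf h) n, fun z => (R4.tp_hasDerivAt _ n z).differentiableAt,
    R4.tp_conj (R4.cf_conj h) n, R4.tp_per _ n, ?_, ?_⟩
  · intro i hi z hz
    rw [R4.tp_iter]
    have h1 := tp_strip hβ (cf_strip hβ hH hb hh hp) i n hz
    have h2 := Finset.single_le_sum (s := Finset.range 6)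
      (f := fun i => M * ∑' m : ℤ, |(m : ℝ)| ^ i * Real.exp (-(β / 2 * |(m : ℝ)|)))
      (fun j _ => hA j) (Finset.mem_range.mpr (by omega : i < 6))
    linarith only [h1, h2]
  · intro i hi x
    refine (hC i n hn1 x).trans ?_
    have h2 := Finset.single_le_sum (s := Finset.range 3) (f := C) (fun j _ => hC0 j)
      (Finset.mem_range.mpr (by omega : i < 3))
    rw [pow_one, div_le_iff₀ hn0]
    have h3 : (∑ i ∈ Finset.range 3, C i) / ε ≤ n := by linarith
    rw [div_le_iff₀ hε] at h3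
    linarith only [h2, h3]

/-- three lines theorem on a horizontal strip -/
theorem three_lines {β M e : ℝ} (hβ : 0 < β) (hM : 1 ≤ M) (he : 0 < e) (he1 : e ≤ 1) {G : ℂ → ℂ}
    (hG : DifferentiableOn ℂ G (strip β)) (hb : ∀ z ∈ strip β, ‖G z‖ ≤ M)
    (hr : ∀ x : ℝ, ‖G x‖ ≤ e) {z : ℂ} (hz : |z.im| ≤ β / 16) : ‖G z‖ ≤ M * e ^ (7/8 : ℝ) := by
  have key : ∀ σ : ℝ, |σ| = 1 → ∀ z : ℂ, 0 ≤ σ * z.im → σ * z.im ≤ β / 16 →
      ‖G z‖ ≤ M * e ^ (7/8 : ℝ) := by
    intro σ hσ z hz0 hz1
    have hσ2 : σ * σ = 1 := by rw [← abs_mul_abs_self, hσ, one_mul]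
    have hσ0 : σ ≠ 0 := by
      intro h; rw [h] at hσ2; norm_num at hσ2
    set k : ℝ := σ * (β / 2) with hk
    have hk0 : k ≠ 0 := mul_ne_zero hσ0 (by positivity)
    have hkβ : |k| = β / 2 := by rw [hk, abs_mul, hσ, one_mul, abs_of_pos (by positivity)]
    set c : ℂ := (k : ℂ) * I with hc
    have hcne : c ≠ 0 := mul_ne_zero (by exact_mod_cast hk0) I_ne_zero
    set f : ℂ → ℂ := fun w => G (c * w) with hf
    have him : ∀ w : ℂ, (c * w).im = k * w.re := by
      intro w
      rw [hc]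
      simp
    have hmem : ∀ w ∈ HadamardThreeLines.verticalClosedStrip 0 1, c * w ∈ strip β := by
      intro w hw
      rw [mem_strip, him, abs_mul, hkβ]
      have h1 : 0 ≤ w.re := hw.1
      have h2 : w.re ≤ 1 := hw.2
      rw [abs_of_nonneg h1]
      nlinarith
    have hfd : ∀ w, c * w ∈ strip β → DifferentiableAt ℂ f w := by
      intro w hw
      have h1 := hG.differentiableAt ((U6.isOpen_strip β).mem_nhds hw)
      exact h1.comp w ((differentiableAt_id).const_mul c)
    have hcl : closure (HadamardThreeLines.verticalStrip 0 1)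
        = HadamardThreeLines.verticalClosedStrip 0 1 := by
      rw [HadamardThreeLines.verticalStrip, HadamardThreeLines.verticalClosedStrip,
        closure_preimage_re, closure_Ioo zero_ne_one]
    have hd : DiffContOnCl ℂ f (HadamardThreeLines.verticalStrip 0 1) := by
      refine DifferentiableOn.diffContOnCl ?_
      rw [hcl]
      exact fun w hw => (hfd w (hmem w hw)).differentiableWithinAt
    have hB : BddAbove ((norm ∘ f) '' HadamardThreeLines.verticalClosedStrip 0 1) := by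
      refine ⟨M, ?_⟩
      rintro _ ⟨w, hw, rfl⟩
      exact hb _ (hmem w hw)
    obtain ⟨w, hw⟩ : ∃ w : ℂ, c * w = z := ⟨z / c, by field_simp⟩
    have hwre : k * w.re = z.im := by rw [← him, hw]
    have hwre2 : w.re * (β / 2) = σ * z.im := by
      rw [← hwre, hk]
      have : σ * (σ * (β / 2) * w.re) = (σ * σ) * (w.re * (β / 2)) := by ring
      rw [this, hσ2, one_mul]
    have hw0 : 0 ≤ w.re := by
      by_contra h
      push Not at h
      nlinarith
    have hw1 : w.re ≤ 1 / 8 := by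
      by_contra h
      push Not at h
      nlinarith
    have h3 := HadamardThreeLines.norm_le_interp_of_mem_verticalClosedStrip₀₁' f (z := w)
      (a := e) (b := M) ⟨hw0, by linarith⟩ hd hB ?_ ?_
    · have e1 : f w = G z := by rw [hf]; simp only; rw [hw]
      rw [e1] at h3
      refine h3.trans ?_
      rw [mul_comm]
      have h4 : M ^ w.re ≤ M := by
        calc M ^ w.re ≤ M ^ (1 : ℝ) := Real.rpow_le_rpow_of_exponent_le hM (by linarith)
          _ = M := Real.rpow_one M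
      have h5 : e ^ (1 - w.re) ≤ e ^ (7/8 : ℝ) :=
        Real.rpow_le_rpow_of_exponent_ge he he1 (by linarith)
      exact mul_le_mul h4 h5 (by positivity) (by linarith)
    · intro w' hw'
      have h6 : w'.re = 0 := hw'
      have h7 : c * w' = (((c * w').re : ℝ) : ℂ) := by
        apply Complex.ext
        · simp
        · rw [him, h6, mul_zero, ofReal_im]
      have e1 : f w' = G (((c * w').re : ℝ) : ℂ) := by
        rw [hf]; simp only; rw [← h7]
      rw [e1]
      exact hr _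
    · intro w' hw'
      have h6 : w'.re = 1 := hw'
      exact hb _ (hmem w' ⟨by rw [h6]; norm_num, by rw [h6]⟩)
  rcases le_total 0 z.im with h | h
  · rw [abs_of_nonneg h] at hz
    exact key 1 (by simp) z (by linarith) (by linarith)
  · rw [abs_of_nonpos h] at hz
    exact key (-1) (by simp) z (by linarith) (by linarith)

/-- bounds of the derivatives on the real line -/
theorem deriv_le {β M e : ℝ} (hβ : 0 < β) (hM : 1 ≤ M) (he : 0 < e) (he1 : e ≤ 1) {G : ℂ → ℂ}
    (hG : DifferentiableOn ℂ G (strip β)) (hb : ∀ z ∈ strip β, ‖G z‖ ≤ M)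
    (hr : ∀ x : ℝ, ‖G x‖ ≤ e) (x : ℝ) (i : ℕ) :
    ‖iteratedDeriv i G x‖ ≤ i.factorial * (M * e ^ (7/8 : ℝ)) / (β / 32) ^ i := by
  refine norm_iteratedDeriv_le_of_forall_mem_sphere_norm_le i (by positivity) ?_ ?_
  · refine DifferentiableOn.diffContOnCl (hG.mono ?_)
    intro z hz
    have h1 : ‖z - x‖ ≤ β / 32 := by
      have h2 := Metric.closure_ball_subset_closedBall hz
      rwa [Metric.mem_closedBall, dist_eq_norm] at h2
    have h3 := (abs_im_le_norm (z - x)).trans h1
    rw [sub_im, ofReal_im, sub_zero] at h3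
    rw [mem_strip]
    linarith
  · intro z hz
    refine three_lines hβ hM he he1 hG hb hr ?_
    rw [mem_sphere_iff_norm] at hz
    have h3 := abs_im_le_norm (z - x)
    rw [hz, sub_im, ofReal_im, sub_zero] at h3
    linarith

end Vale.Agent.P097.FD
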