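import Vale.Agent.P097.Bdl.B3

/-! # P097 / FD : uniform classes of integrable tables and the strip estimate (statements) -/

set_option linter.all false

open scoped ContDiff

namespace Vale.Agent.P097.FD

open Vale.Agent.P097

/-- `h` is `2π`-periodic, its radius of curvature is at least `1/M`, and `h` extends to a
holomorphic function on the strip `|Im z| < β` which is bounded by `M`. -/
def StripTab (β M : ℝ) (h : ℝ → ℝ) : Prop :=
  (∀ x, h (x + 2 * Real.pi) = h x) ∧ (∀ x, 1 ≤ M * (h x + deriv (deriv h) x)) ∧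
    ∃ H : ℂ → ℂ, DifferentiableOn ℂ H {z : ℂ | |z.im| < β} ∧ (∀ z : ℂ, |z.im| < β → ‖H z‖ ≤ M) ∧
      ∀ x : ℝ, H x = h x

/-- `C^∞`-bounded class: all derivatives bounded by a given sequence, radius of curvature at least
`c`. -/
def SmoothBd (A : ℕ → ℝ) (c : ℝ) (h : ℝ → ℝ) : Prop :=
  ContDiff ℝ ∞ h ∧ (∀ x, h (x + 2 * Real.pi) = h x) ∧ (∀ x, c ≤ h x + deriv (deriv h) x) ∧
    ∀ i x, |iteratedDeriv i h x| ≤ A i

/-- [F] strip estimate: the difference of two integrable tables is controlled on a complex strip by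
its maximum on the real line. -/
def StF : Prop := ∀ η β M : ℝ, 0 < η → 0 < β → 1 ≤ M → ∃ β' C : ℝ, 0 < β' ∧ 0 ≤ C ∧
  ∀ h₁ h₂ : ℝ → ℝ, StripTab β M h₁ → StripTab β M h₂ → Collar h₁ η → Collar h₂ η →
    ∀ b : ℝ, (∀ x, |h₁ x - h₂ x| ≤ b) →
      ∃ G : ℂ → ℂ, DifferentiableOn ℂ G {z : ℂ | |z.im| < β'} ∧
        (∀ z : ℂ, |z.im| < β' → ‖G z‖ ≤ C * b) ∧ ∀ x : ℝ, G x = h₁ x - h₂ x

/-- [R] uniform regularity: a `C^∞`-bounded class of integrable tables is contained in a class of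
tables with a uniform strip. -/
def StR : Prop := ∀ (η c : ℝ) (A : ℕ → ℝ), 0 < η → 0 < c → ∃ β M : ℝ, 0 < β ∧ 1 ≤ M ∧
  ∀ h : ℝ → ℝ, SmoothBd A c h → Collar h η → StripTab β M h

end Vale.Agent.P097.FD
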