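import Vale.Agent.P097.FD.Defs

/-! # P097 / FD : the leaf relation for all integrable tables near a complexified table -/

set_option linter.all false

namespace Vale.Agent.P097.FD

open Vale.Agent.P097 Vale.Agent.P097.Reg
open Complex
open scoped ComplexConjugate ContDiff

/-- `leaf_relation` of the regularity theorem, with coefficients which do not depend on the
function `h`. -/
theorem leaf_relation' (M0 : ℝ) (hM0 : 1 ≤ M0) : ∃ C : ℝ, 1 ≤ C ∧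
    ∀ (M β P : ℝ) (T : CTab M β P), M ≤ M0 → ∀ (s : ℝ) (n q : ℕ), q = n + 1 →
      0 < s → s < β → C * (P / q) ≤ s →
      ∃ (Ef κ : ℕ → ℂ → ℂ) (L : ℂ → ℂ),
        (∀ j < q, DifferentiableOn ℂ (Ef j) (strip (β - s))) ∧
        (∀ j < q, DifferentiableOn ℂ (κ j) (strip (β - s))) ∧
        (∀ j < q, ∀ ζ ∈ strip (β - s), Ef j (ζ + P) = Ef j ζ ∧ κ j (ζ + P) = κ j ζ) ∧
        (∀ j < q, ∀ ζ ∈ strip (β - s),
          ‖Ef j ζ‖ ≤ C * (P / q) ^ 2 ∧ ‖κ j ζ - 1‖ ≤ C * (P / q) ^ 2) ∧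
        (∀ j < q, ∀ x : ℝ, (Ef j x).im = 0) ∧
        ∀ (h : ℝ → ℝ), ContDiff ℝ ∞ h →
          (∀ x, h (x + 2 * Real.pi) = h x) → (∀ x, 0 < rad h x) → ∀ E : ℝ,
          Close T h E → C * (q : ℝ) ^ 4 * E ≤ s → Cst h n →
          (∀ x : ℝ, ‖((mx h n 0 : ℝ) : ℂ) - L x - (P / q : ℝ) * ∑ j ∈ Finset.range q,
            κ j x * wd T h (x + (j + 1 / 2) * (P / q) + (Ef j x).re)‖
              ≤ C * (q : ℝ) ^ 8 * E ^ 2) := by
  obtain ⟨C1, hC1, hsh⟩ := shadow M0 hM0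
  obtain ⟨C2, hC2, hclo⟩ := exists_clo M0 hM0
  have hM03 : 1 ≤ M0 ^ 3 := one_le_pow₀ hM0
  refine ⟨C1 + C2 + 2 * M0 + (4 * M0 ^ 3 + 3 * (1 + 8 * M0) * C2)
    + (4 * M0 ^ 4 + (1 + 2 * (8 * M0)) * C2) + 8 * M0 ^ 2 * (8 * M0)
    + 96 * M0 ^ 3 * C1 ^ 2, ?_, ?_⟩
  · have : 0 ≤ 2 * M0 + (4 * M0 ^ 3 + 3 * (1 + 8 * M0) * C2)
      + (4 * M0 ^ 4 + (1 + 2 * (8 * M0)) * C2) + 8 * M0 ^ 2 * (8 * M0)
      + 96 * M0 ^ 3 * C1 ^ 2 := by positivity
    linarith only [hC1, hC2, this]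
  intro M β P T hM s n q hqn hs0 hsβ hom
  have hP := T.P0
  have hM1 := T.M1
  have hM10 : 0 ≤ M := by linarith only [hM1]
  have hP2 := (period_bounds T).2
  have hβ1 := T.β1
  have hq1 : 1 ≤ q := by omega
  have hq0 : (1 : ℝ) ≤ q := by exact_mod_cast hq1
  have hpi4 := Real.pi_lt_four
  have hPM : P ≤ 8 * M0 := by
    calc P ≤ 2 * Real.pi * M := hP2
      _ ≤ 2 * 4 * M0 := by (clear * - hpi4 hM hM1; gcongr)
      _ = 8 * M0 := by ring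
  set om := P / q with homdef
  have hom0 : 0 < om := div_pos hP (by linarith only [hq0])
  obtain ⟨CC, hCC⟩ : ∃ CC : ℝ, CC = C1 + C2 + 2 * M0 + (4 * M0 ^ 3 + 3 * (1 + 8 * M0) * C2)
    + (4 * M0 ^ 4 + (1 + 2 * (8 * M0)) * C2) + 8 * M0 ^ 2 * (8 * M0)
    + 96 * M0 ^ 3 * C1 ^ 2 := ⟨_, rfl⟩
  rw [← hCC] at hom ⊢
  have k1 : 0 ≤ 4 * M0 ^ 3 + 3 * (1 + 8 * M0) * C2 := by positivity
  have k2 : 0 ≤ 4 * M0 ^ 4 + (1 + 2 * (8 * M0)) * C2 := by positivity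
  have k3 : 0 ≤ 8 * M0 ^ 2 * (8 * M0) := by positivity
  have k4 : 0 ≤ 96 * M0 ^ 3 * C1 ^ 2 := by positivity
  have c1 : C1 ≤ CC := by linarith only [k4, k2, k1, hCC, hM03, hC2, hM0]
  have c2 : C2 ≤ CC := by (clear * - hM0 hC1 hM03 hs0 hsβ hβ1 hCC k1 k2 k4; linarith)
  have c3 : 2 * M0 ≤ CC := by linarith only [hC1, hC2, hM03, hCC, k1, k2, k4]
  have c4 : 4 * M0 ^ 3 + 3 * (1 + 8 * M0) * C2 ≤ CC := by linarith only [k4, k2, hCC, hM03, hC2, hC1, hM0]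
  have c5 : 4 * M0 ^ 4 + (1 + 2 * (8 * M0)) * C2 ≤ CC := by linarith only [hM0, hC1, hC2, hM03, hCC, k1, k4]
  have c6 : 8 * M0 ^ 2 * (8 * M0) ≤ CC := by linarith only [hM0, hC1, hC2, hCC, k1, k2, k4]
  have c7 : 96 * M0 ^ 3 * C1 ^ 2 ≤ CC := by linarith only [hM0, hC1, hC2, hM03, hCC, k1, k2]
  have hCC0 : 0 ≤ CC := by linarith only [hM0, hC1, hC2, hM03, hCC, k1, k2, k4]
  clear hCC
  have hC1om : C1 * om ≤ s := le_trans (by (clear * - c1 hP hq1; gcongr)) hom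
  have hC2om : C2 * om ≤ s := le_trans (by (clear * - c2 hP hq1; gcongr)) hom
  have h2om : 2 * M * om ≤ 1 := by
    have g1 : 2 * M * om ≤ 2 * M0 * om := by (clear * - hM hP hq1; gcongr)
    have g2 : 2 * M0 * om ≤ CC * om := by (clear * - c3 hP hq1; gcongr)
    linarith only [g1, g2, hom, hsβ, hβ1]
  have hom1 : om ≤ 1 := by nlinarith only [hsβ, hβ1, hC1om, hC1]
  have hqp : (q : ℝ) ≤ (q : ℝ) ^ 4 := by
    calc (q : ℝ) = (q : ℝ) ^ 1 := (pow_one _).symm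
      _ ≤ (q : ℝ) ^ 4 := pow_le_pow_right₀ hq0 (by norm_num)
  obtain ⟨a, H, ha⟩ := hclo T hM q hq1 s hs0 hsβ hC2om
  rw [← homdef] at H
  have hC20 : 0 ≤ C2 := by linarith only [hC2]
  have hbβ : β - s ≤ β := by linarith only [hs0]
  have hreal : ∀ x : ℝ, (x : ℂ) ∈ strip (β - s) := by
    intro x
    change |(x : ℂ).im| < β - s
    rw [ofReal_im, abs_zero]; linarith only [hsβ]
  refine ⟨Efn T om a, kpn T om a, Ln T om a q, fun j hj => H.diffE hj.le,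
    fun j hj => H.diffK hj.le, fun j hj ζ hζ => ⟨H.perE hbβ hζ hj.le, H.perK hbβ hζ hj.le⟩,
    ?_, fun j hj x => H.realE hbβ (hreal x) hj.le, ?_⟩
  · intro j hj ζ hζ
    refine ⟨(H.boundE hC20 hq1 homdef hom1 hζ hbβ hj).trans ?_,
      (H.boundK hC20 hq1 homdef h2om hζ hbβ hj).trans ?_⟩
    · have : 4 * M ^ 3 + 3 * (1 + P) * C2 ≤ 4 * M0 ^ 3 + 3 * (1 + 8 * M0) * C2 := by (clear * - hM1 hM hPM hC2; gcongr)
      gcongr
      exact this.trans c4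
    · have : 4 * M ^ 4 + (1 + 2 * P) * C2 ≤ 4 * M0 ^ 4 + (1 + 2 * (8 * M0)) * C2 := by (clear * - hM1 hM hPM hC2; gcongr)
      gcongr
      exact this.trans c5
  · intro h hs hp hpos E hcl hE hcst x
    have hE0 : 0 ≤ E := (abs_nonneg _).trans (hcl 0).1
    have hC1E : C1 * q * E ≤ s := by
      refine le_trans ?_ hE
      (clear * - c1 hqp hq1 hCC0 hE0; gcongr)
    have hE1 : E ≤ 1 := by
      have : E ≤ C1 * q * E := by
        have : 1 ≤ C1 * q := by nlinarith only [hq0, hC1]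
        linarith only [mul_nonneg (sub_nonneg.2 hE0) (sub_nonneg.2 this)]
      linarith only [hsβ, hβ1, hC1E, this]
    obtain ⟨Z, hZ⟩ := exists_isMaxC hs.continuous n (T.z x).re
    have hc := hcst (T.z x).re
    have hmx := hZ.mx_eq hs.continuous
    have hZpos := isMaxC_pos_smooth hs hp hpos hZ
    have hZcrit := isMaxC_crit_smooth hs hp hpos hZ
    have hxβ : (x : ℂ) ∈ strip β := strip_mono hbβ (hreal x)
    have hzr : (((T.z x).re : ℝ) : ℂ) = T.z x := by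
      have h1 := z_conj (T := T) hxβ
      rw [Complex.conj_ofReal] at h1
      exact Complex.conj_eq_iff_re.1 h1.symm
    have hZ0 : (Z 0 : ℂ) = T.z x := by rw [hZ.1.1, hzr]
    have hZn : Z (n + 1) = Z 0 + 2 * Real.pi := by rw [hZ.1.2.1, hZ.1.1]
    have hcloseq := H.close x (hreal x)
    have hd := hsh M β P T hM h hs hp hpos E s n q hqn hcl hs0 hsβ hC1om hC1E a x
      (ha x (hreal x)) (by rw [← homdef]; exact hcloseq) Z hZpos hZn hZcrit hZ0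
    rw [← homdef] at hd
    have hU0 : (ph T om a 0 x).re = Z 0 := by
      have : ph T om a 0 x = T.z x := rfl
      rw [this, ← hZ0, ofReal_re]
    have hUn : (ph T om a (n + 1) x).re = Z (n + 1) := by
      have h1 : ph T om a q x ∈ T.D := (H.good x (hreal x) q le_rfl).mem
      have h2 := T.zX _ h1
      rw [hcloseq, z_per hxβ, ← hZ0] at h2
      rw [← hqn, ← h2, hqn, hZn]
      simp
    have hε : ∀ j ≤ n + 1, |(ph T om a j x).re - Z j| ≤ C1 * q * E := by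
      intro j hj
      have h1 := hd j (by (clear * - hqn hj; omega))
      have h2 : (ph T om a j x).re - Z j = (ph T om a j x - (Z j : ℂ)).re := by simp
      rw [h2]
      refine (abs_re_le_norm _).trans ?_
      rw [norm_sub_rev]
      exact h1
    have h2nd := second_order hs (B := 24 * M ^ 3) (fun x => bound_h hs hp hcl hE1 x)
      (U := fun j => (ph T om a j x).re) (Z := Z) hU0 hUn hZcrit hε
    have hLe := H.L_eq hqn hbβ hom0 (hreal x) h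
    have e : (((mx h n 0 : ℝ) : ℂ)) - Ln T om a q x - (om : ℝ) * ∑ j ∈ Finset.range q,
        kpn T om a j x * wd T h (x + (j + 1 / 2) * om + (Efn T om a j x).re)
        = -((L h n (fun j => (ph T om a j x).re) - L h n Z : ℝ) : ℂ) := by
      rw [ofReal_sub, hLe, ← hmx, hc]
      ring
    rw [e, norm_neg, norm_real, Real.norm_eq_abs]
    refine h2nd.trans ?_
    have hn1 : (n : ℝ) + 1 = q := by rw [hqn]; push_cast; ring
    rw [hn1]
    have hq3 : (q : ℝ) ^ 3 ≤ (q : ℝ) ^ 8 := pow_le_pow_right₀ hq0 (by norm_num)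
    calc 4 * (24 * M ^ 3) * q * (C1 * q * E) ^ 2 = 96 * M ^ 3 * C1 ^ 2 * (q : ℝ) ^ 3 * E ^ 2 := by
          ring
      _ ≤ 96 * M0 ^ 3 * C1 ^ 2 * (q : ℝ) ^ 8 * E ^ 2 := by (clear * - hM1 hM hC1 hq3 hq1 hM0; gcongr)
      _ ≤ CC * (q : ℝ) ^ 8 * E ^ 2 := by (clear * - c7 hq1; gcongr)

/-- the leaf relation for the difference of two tables -/
theorem leaf_diff (M0 : ℝ) (hM0 : 1 ≤ M0) : ∃ C : ℝ, 1 ≤ C ∧
    ∀ (M β P : ℝ) (T : CTab M β P), M ≤ M0 → ∀ (s : ℝ) (n q : ℕ), q = n + 1 →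
      0 < s → s < β → C * (P / q) ≤ s →
      ∃ (Ef κ : ℕ → ℂ → ℂ),
        (∀ j < q, DifferentiableOn ℂ (Ef j) (strip (β - s))) ∧
        (∀ j < q, DifferentiableOn ℂ (κ j) (strip (β - s))) ∧
        (∀ j < q, ∀ ζ ∈ strip (β - s), Ef j (ζ + P) = Ef j ζ ∧ κ j (ζ + P) = κ j ζ) ∧
        (∀ j < q, ∀ ζ ∈ strip (β - s),
          ‖Ef j ζ‖ ≤ C * (P / q) ^ 2 ∧ ‖κ j ζ - 1‖ ≤ C * (P / q) ^ 2) ∧
        (∀ j < q, ∀ x : ℝ, (Ef j x).im = 0) ∧
        ∀ (h₁ h₂ : ℝ → ℝ), ContDiff ℝ ∞ h₁ → ContDiff ℝ ∞ h₂ →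
          (∀ x, h₁ (x + 2 * Real.pi) = h₁ x) → (∀ x, h₂ (x + 2 * Real.pi) = h₂ x) →
          (∀ x, 0 < rad h₁ x) → (∀ x, 0 < rad h₂ x) → ∀ E : ℝ,
          Close T h₁ E → Close T h₂ E → C * (q : ℝ) ^ 4 * E ≤ s → Cst h₁ n → Cst h₂ n →
          ∃ c0 : ℝ, ∀ x : ℝ, ‖(c0 : ℂ) - (P / q : ℝ) * ∑ j ∈ Finset.range q,
            κ j x * (wd T h₁ (x + (j + 1 / 2) * (P / q) + (Ef j x).re)
              - wd T h₂ (x + (j + 1 / 2) * (P / q) + (Ef j x).re))‖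
              ≤ C * (q : ℝ) ^ 8 * E ^ 2 := by
  obtain ⟨C, hC, H⟩ := leaf_relation' M0 hM0
  refine ⟨2 * C, by linarith, ?_⟩
  intro M β P T hM s n q hqn hs0 hsβ hom
  have hq0 : (0 : ℝ) < q := by rw [hqn]; positivity
  have hP := T.P0
  have hPq : 0 ≤ P / q := by positivity
  have hC0 : 0 ≤ C := by linarith only [hC]
  have hom' : C * (P / q) ≤ s := by nlinarith only [hom, hPq, hC0, mul_nonneg hC0 hPq]
  obtain ⟨Ef, κ, L, a1, a2, a3, a4, a5, a6⟩ := H M β P T hM s n q hqn hs0 hsβ hom'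
  refine ⟨Ef, κ, a1, a2, a3, fun j hj ζ hζ => ?_, a5, ?_⟩
  · obtain ⟨b1, b2⟩ := a4 j hj ζ hζ
    have h2 : C * (P / q) ^ 2 ≤ 2 * C * (P / q) ^ 2 := by nlinarith only [mul_nonneg hC0 (sq_nonneg (P / q))]
    exact ⟨b1.trans h2, b2.trans h2⟩
  intro h₁ h₂ s1 s2 p1 p2 r1 r2 E cl1 cl2 hE c1 c2
  have hE0 : 0 ≤ E := (abs_nonneg _).trans (cl1 0).1
  have hE' : C * (q : ℝ) ^ 4 * E ≤ s := by
    have : 0 ≤ C * (q : ℝ) ^ 4 * E := by positivity
    linarith only [hE, this]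
  refine ⟨mx h₁ n 0 - mx h₂ n 0, fun x => ?_⟩
  have e1 := a6 h₁ s1 p1 r1 E cl1 hE' c1 x
  have e2 := a6 h₂ s2 p2 r2 E cl2 hE' c2 x
  have e3 : ((mx h₁ n 0 - mx h₂ n 0 : ℝ) : ℂ) - (P / q : ℝ) * ∑ j ∈ Finset.range q,
      κ j x * (wd T h₁ (x + (j + 1 / 2) * (P / q) + (Ef j x).re)
        - wd T h₂ (x + (j + 1 / 2) * (P / q) + (Ef j x).re)) =
      (((mx h₁ n 0 : ℝ) : ℂ) - L x - (P / q : ℝ) * ∑ j ∈ Finset.range q,
            κ j x * wd T h₁ (x + (j + 1 / 2) * (P / q) + (Ef j x).re)) -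
      (((mx h₂ n 0 : ℝ) : ℂ) - L x - (P / q : ℝ) * ∑ j ∈ Finset.range q,
            κ j x * wd T h₂ (x + (j + 1 / 2) * (P / q) + (Ef j x).re)) := by
    have : ∑ j ∈ Finset.range q,
      κ j x * (wd T h₁ (x + (j + 1 / 2) * (P / q) + (Ef j x).re)
        - wd T h₂ (x + (j + 1 / 2) * (P / q) + (Ef j x).re)) =
        ∑ j ∈ Finset.range q,
            κ j x * wd T h₁ (x + (j + 1 / 2) * (P / q) + (Ef j x).re) -
        ∑ j ∈ Finset.range q,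
            κ j x * wd T h₂ (x + (j + 1 / 2) * (P / q) + (Ef j x).re) := by
      rw [← Finset.sum_sub_distrib]
      exact Finset.sum_congr rfl fun j _ => by ring
    rw [this]
    push_cast
    ring
  rw [e3]
  refine (norm_sub_le _ _).trans ?_
  linarith only [e1, e2]

end Vale.Agent.P097.FD
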