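import Vale.Agent.P097.FD.Approx

/-! # P097 / FD : complexified tables close to two given tables -/

set_option linter.all false

namespace Vale.Agent.P097.FD

open Vale.Agent.P097 Vale.Agent.P097.Reg
open Complex Set
open scoped ComplexConjugate ContDiff Topology

theorem StripTab.contDiff {β M : ℝ} (hβ : 0 < β) {h : ℝ → ℝ} (S : StripTab β M h) :
    ContDiff ℝ ∞ h := by
  obtain ⟨-, -, H, hH, -, hh⟩ := S
  exact ext_contDiff hβ hH hh

theorem StripTab.rad_pos {β M : ℝ} (hM : 1 ≤ M) {h : ℝ → ℝ} (S : StripTab β M h) (x : ℝ) :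
    0 < rad h x := by
  have h1 := S.2.1 x
  unfold rad
  by_contra h2
  push Not at h2
  nlinarith

/-- the difference of two close tables is small in `C²` -/
theorem c2_close (β M : ℝ) (hβ : 0 < β) (hM : 1 ≤ M) : ∃ K : ℝ, 1 ≤ K ∧ ∀ h₁ h₂ : ℝ → ℝ,
    StripTab β M h₁ → StripTab β M h₂ → ∀ e : ℝ, 0 < e → e ≤ 1 → (∀ x, |h₁ x - h₂ x| ≤ e) →
      ∀ x, |h₁ x - h₂ x| ≤ K * e ^ (7/8 : ℝ) ∧ |deriv h₁ x - deriv h₂ x| ≤ K * e ^ (7/8 : ℝ) ∧
        |deriv (deriv h₁) x - deriv (deriv h₂) x| ≤ K * e ^ (7/8 : ℝ) := by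
  have t0 : 0 ≤ 1 / (β / 32) := by positivity
  have t1 : 0 ≤ 2 / (β / 32) ^ 2 := by positivity
  refine ⟨2 * M * (1 + 1 / (β / 32) + 2 / (β / 32) ^ 2), ?_, ?_⟩
  · nlinarith
  rintro h₁ h₂ ⟨p1, r1, H₁, d1, b1, e1⟩ ⟨p2, r2, H₂, d2, b2, e2⟩ e he he1 hd x
  have hO := U6.isOpen_strip β
  have dG : DifferentiableOn ℂ (fun z => H₁ z - H₂ z) (strip β) := DifferentiableOn.sub d1 d2
  have bG : ∀ z ∈ strip β, ‖H₁ z - H₂ z‖ ≤ 2 * M := fun z hz =>
    (norm_sub_le _ _).trans (by linarith [b1 z hz, b2 z hz])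
  have rG : ∀ x : ℝ, ‖H₁ x - H₂ x‖ ≤ e := by
    intro x
    rw [e1, e2, ← ofReal_sub, norm_real, Real.norm_eq_abs]
    exact hd x
  have key := fun i => deriv_le hβ (by linarith : 1 ≤ 2 * M) he he1 dG bG rG x i
  have hE : 0 ≤ e ^ (7/8 : ℝ) := by positivity
  have hM0 : 0 ≤ M := by linarith
  have hME : 0 ≤ 2 * M * e ^ (7/8 : ℝ) := by positivity
  -- derivatives
  have g1 := ext_deriv hβ d1 e1
  have g2 := ext_deriv hβ d2 e2
  have d1' : DifferentiableOn ℂ (deriv H₁) (strip β) := d1.deriv hO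
  have d2' : DifferentiableOn ℂ (deriv H₂) (strip β) := d2.deriv hO
  have k1 := ext_deriv hβ d1' (h := deriv h₁) g1.2
  have k2 := ext_deriv hβ d2' (h := deriv h₂) g2.2
  have dif1 : ∀ z ∈ strip β, DifferentiableAt ℂ H₁ z := fun z hz =>
    d1.differentiableAt (hO.mem_nhds hz)
  have dif2 : ∀ z ∈ strip β, DifferentiableAt ℂ H₂ z := fun z hz =>
    d2.differentiableAt (hO.mem_nhds hz)
  have ev1 : ∀ z ∈ strip β, deriv (fun z => H₁ z - H₂ z) z = deriv H₁ z - deriv H₂ z :=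
    fun z hz => deriv_fun_sub (dif1 z hz) (dif2 z hz)
  have hx := real_mem hβ x
  have ev2 : deriv (deriv (fun z => H₁ z - H₂ z)) x = deriv (deriv H₁) x - deriv (deriv H₂) x := by
    have h1 : deriv (fun z => H₁ z - H₂ z) =ᶠ[𝓝 (x : ℂ)] fun z => deriv H₁ z - deriv H₂ z := by
      filter_upwards [hO.mem_nhds hx] with z hz using ev1 z hz
    rw [h1.deriv_eq]
    exact deriv_fun_sub (d1'.differentiableAt (hO.mem_nhds hx)) (d2'.differentiableAt (hO.mem_nhds hx))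
  have n1 : |deriv h₁ x - deriv h₂ x| ≤ 1 * (2 * M * e ^ (7/8 : ℝ)) / (β / 32) ^ 1 := by
    have h1 := key 1
    rw [iteratedDeriv_one, ev1 x hx, g1.2, g2.2, ← ofReal_sub, norm_real, Real.norm_eq_abs] at h1
    simpa using h1
  have n2 : |deriv (deriv h₁) x - deriv (deriv h₂) x| ≤
      2 * (2 * M * e ^ (7/8 : ℝ)) / (β / 32) ^ 2 := by
    have h1 := key 2
    rw [U6.iter2, ev2, k1.2, k2.2, ← ofReal_sub, norm_real, Real.norm_eq_abs] at h1
    simpa using h1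
  have n0 : |h₁ x - h₂ x| ≤ 1 * (2 * M * e ^ (7/8 : ℝ)) := by
    have h1 := key 0
    rw [iteratedDeriv_zero, e1, e2, ← ofReal_sub, norm_real, Real.norm_eq_abs] at h1
    simpa using h1
  have s0 : 0 ≤ 2 * M * e ^ (7/8 : ℝ) * (1 / (β / 32)) := mul_nonneg hME t0
  have s1 : 0 ≤ 2 * M * e ^ (7/8 : ℝ) * (2 / (β / 32) ^ 2) := mul_nonneg hME t1
  have e3 : 1 * (2 * M * e ^ (7/8 : ℝ)) / (β / 32) ^ 1
      = 2 * M * e ^ (7/8 : ℝ) * (1 / (β / 32)) := by ring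
  have e4 : 2 * (2 * M * e ^ (7/8 : ℝ)) / (β / 32) ^ 2
      = 2 * M * e ^ (7/8 : ℝ) * (2 / (β / 32) ^ 2) := by ring
  have e5 : 2 * M * (1 + 1 / (β / 32) + 2 / (β / 32) ^ 2) * e ^ (7/8 : ℝ)
      = 2 * M * e ^ (7/8 : ℝ) + 2 * M * e ^ (7/8 : ℝ) * (1 / (β / 32))
        + 2 * M * e ^ (7/8 : ℝ) * (2 / (β / 32) ^ 2) := by ring
  rw [e3] at n1
  rw [e4] at n2
  rw [e5]
  refine ⟨?_, ?_, ?_⟩ <;> linarith only [n0, n1, n2, s0, s1, hME]

/-- complexified tables close to two given tables, with uniform constants -/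
theorem table (β M : ℝ) (hβ : 0 < β) (hM : 1 ≤ M) : ∃ M1 βT K e1 : ℝ, 1 ≤ M1 ∧ 0 < βT ∧ 1 ≤ K ∧
    0 < e1 ∧ e1 ≤ 1 ∧ ∀ h₁ h₂ : ℝ → ℝ,
    StripTab β M h₁ → StripTab β M h₂ → ∀ e : ℝ, 0 < e → e ≤ e1 → (∀ x, |h₁ x - h₂ x| ≤ e) →
      ∃ (P : ℝ) (T : CTab M1 βT P), (∀ ψ ∈ T.D, ψ ∈ strip β) ∧
        Close T h₁ (K * e ^ (7/8 : ℝ)) ∧ Close T h₂ (K * e ^ (7/8 : ℝ)) := by
  obtain ⟨K, hK, c2⟩ := c2_close β M hβ hM
  obtain ⟨C0, hC0, ap⟩ := approx β M hβ hM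
  have hM0 : 0 < M := by linarith
  obtain ⟨M1, hM1, κ, hκ, b0, hb0, base⟩ := exists_base C0 (1 / (2 * M)) hC0 (by positivity)
  have hb : 0 < min b0 (β / 2) := lt_min hb0 (by positivity)
  refine ⟨M1, κ * min b0 (β / 2), K + 1, min 1 (1 / (4 * M)), hM1, by positivity, by linarith,
    by positivity, min_le_left _ _, ?_⟩
  intro h₁ h₂ S1 S2 e he hee hd
  have he1 : e ≤ 1 := hee.trans (min_le_left _ _)
  have he2 : e ≤ 1 / (4 * M) := hee.trans (min_le_right _ _)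
  obtain ⟨G, G1, G2, G3, G4, G5⟩ := ap h₁ S1 e he
  have hs1 := S1.contDiff hβ
  have hs2 := S2.contDiff hβ
  have hpos : ∀ x : ℝ, 1 / (2 * M) ≤ (G x + deriv (deriv G) x).re := by
    intro x
    have a0 := abs_le.1 (G5 0 (by norm_num) x)
    have a2 := abs_le.1 (G5 2 (by norm_num) x)
    simp only [Function.iterate_zero, id_eq] at a0
    have i2 : ∀ (f : ℝ → ℝ), deriv^[2] f = deriv (deriv f) := fun f => rfl
    have i2' : ∀ (f : ℂ → ℂ), deriv^[2] f = deriv (deriv f) := fun f => rfl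
    rw [i2, i2'] at a2
    have r := S1.2.1 x
    have r2 : 1 / M ≤ h₁ x + deriv (deriv h₁) x := by
      rw [div_le_iff₀ hM0, mul_comm]; exact r
    rw [add_re]
    have e1 : 1 / (2 * M) = 1 / M - 2 * (1 / (4 * M)) := by field_simp; ring
    rw [e1]
    linarith only [a0, a2, r2, he2]
  obtain ⟨P, T, hTG, hTD⟩ := base (min b0 (β / 2)) hb (min_le_left _ _) G G1 G2 G3
    (fun i hi z hz => G4 i hi z (hz.trans (min_le_right _ _))) hpos
  refine ⟨P, T, fun ψ hψ => ?_, ?_, ?_⟩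
  · have h1 := hTD ψ hψ
    have h2 := min_le_right b0 (β / 2)
    rw [mem_strip]
    linarith
  all_goals
    have hE : 0 ≤ e ^ (7/8 : ℝ) := by positivity
    have hee' : e ≤ e ^ (7/8 : ℝ) := by
      calc e = e ^ (1 : ℝ) := (Real.rpow_one e).symm
        _ ≤ _ := Real.rpow_le_rpow_of_exponent_ge he he1 (by norm_num)
    have hKE : 0 ≤ K * e ^ (7/8 : ℝ) := by positivity
    intro x
    have a0 := G5 0 (by norm_num) x
    have a1 := G5 1 (by norm_num) x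
    have a2 := G5 2 (by norm_num) x
    simp only [Function.iterate_zero, id_eq, Function.iterate_one] at a0 a1
    have i2 : ∀ (f : ℝ → ℝ), deriv^[2] f = deriv (deriv f) := fun f => rfl
    have i2' : ∀ (f : ℂ → ℂ), deriv^[2] f = deriv (deriv f) := fun f => rfl
    rw [i2, i2'] at a2
    obtain ⟨c0, c1, c2'⟩ := c2 h₁ h₂ S1 S2 e he he1 hd x
  · rw [deriv_df2 hs1, deriv_df hs1, df, hTG]
    refine ⟨?_, ?_, ?_⟩
    · linarith only [a0, hee', hKE]
    · linarith only [a1, hee', hKE]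
    · linarith only [a2, hee', hKE]
  · rw [deriv_df2 hs2, deriv_df hs2, df, hTG]
    have tri : ∀ a b c : ℝ, |a - c| ≤ |b - a| + |b - c| := by
      intro a b c
      have := abs_sub_le a b c
      rwa [abs_sub_comm a b] at this
    refine ⟨(tri _ (h₁ x) _).trans ?_, (tri _ (deriv h₁ x) _).trans ?_,
      (tri _ (deriv (deriv h₁) x) _).trans ?_⟩
    · linarith only [a0, hee', c0]
    · linarith only [a1, hee', c1]
    · linarith only [a2, hee', c2']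

end Vale.Agent.P097.FD
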