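import Vale.Agent.P097.FD.Decay
import Vale.Agent.P097.FD.Table

/-! # P097 / FD : the strip estimate for the difference of two integrable tables -/

set_option linter.all false

namespace Vale.Agent.P097.FD

open Vale.Agent.P097 Vale.Agent.P097.Reg
open Complex Set
open scoped ComplexConjugate ContDiff Topology

/-- reconstruction of the difference on a strip from the decay of its Fourier coefficients in the
Lazutkin coordinate -/
theorem recon {M1 βT P : ℝ} (T : CTab M1 βT P) {h₁ h₂ : ℝ → ℝ} (s1 : Continuous h₁)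
    (s2 : Continuous h₂) (p1 : ∀ x, h₁ (x + 2 * Real.pi) = h₁ x)
    (p2 : ∀ x, h₂ (x + 2 * Real.pi) = h₂ x) {Λ B r : ℝ} (hΛ : 0 < Λ) (hB : 0 ≤ B) (hr0 : 0 < r)
    (hr1 : M1 * r ≤ βT) (hr2 : M1 ^ 2 * r ≤ Λ / 2)
    (hc : ∀ n : ℤ, ‖fc P (wdd T h₁ h₂) n‖ ≤ B * Real.exp (-(Λ * |(n : ℝ)|))) :
    ∃ G : ℂ → ℂ, DifferentiableOn ℂ G (strip r) ∧
      (∀ z ∈ strip r, ‖G z‖ ≤ M1 * (B * ∑' n : ℤ, Real.exp (-(Λ / 2 * |(n : ℝ)|)))) ∧
      ∀ x : ℝ, G x = h₁ x - h₂ x := by
  have hM1 := T.M1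
  have hM10 : 0 < M1 := by linarith only [hM1]
  have hP := T.P0
  have hP1 := (period_bounds T).1
  have hXr : ∀ x : ℝ, (T.X x).im = 0 := fun x => X_real (T := T) x
  -- geometry
  have geo : ∀ z ∈ strip r, z ∈ T.D ∧ |(T.X z).im| ≤ M1 * |z.im| := by
    intro z hz
    rw [mem_strip] at hz
    have e : ‖z - (z.re : ℂ)‖ = |z.im| := by
      have : z - (z.re : ℂ) = (z.im : ℂ) * I := by
        apply Complex.ext <;> simp
      rw [this, norm_mul, norm_I, mul_one, norm_real, Real.norm_eq_abs]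
    have h1 := ball_subset T (φ := (z.re : ℂ)) (ψ := z) (T.rD z.re) (by
      rw [hXr, abs_zero, zero_add, e]
      have := mul_lt_mul_of_pos_left hz hM10
      linarith only [this, hr1])
    refine ⟨h1.1, ?_⟩
    have h2 := h1.2
    rw [e] at h2
    have h3 : (T.X z).im = (T.X z - T.X (z.re : ℂ)).im := by rw [sub_im, hXr, sub_zero]
    rw [h3]
    exact (abs_im_le_norm _).trans h2
  have term : ∀ (n : ℤ), ∀ z ∈ strip r, ‖fc P (wdd T h₁ h₂) n * ex P n (T.X z)‖ ≤
      B * Real.exp (-(Λ / 2 * |(n : ℝ)|)) := by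
    intro n z hz
    obtain ⟨hzD, hzi⟩ := geo z hz
    rw [mem_strip] at hz
    have h1 := r9_ex_le hP n (T.X z)
    have hn0 : 0 ≤ |(n : ℝ)| := abs_nonneg _
    have h2 : 2 * Real.pi * |(n : ℝ)| * |(T.X z).im| / P ≤ Λ / 2 * |(n : ℝ)| := by
      have h3 : 2 * Real.pi / P ≤ M1 := by rw [div_le_iff₀ hP]; exact hP1
      have h4 : |(T.X z).im| ≤ M1 * r :=
        hzi.trans (mul_le_mul_of_nonneg_left hz.le hM10.le)
      calc 2 * Real.pi * |(n : ℝ)| * |(T.X z).im| / P
          = (2 * Real.pi / P) * |(T.X z).im| * |(n : ℝ)| := by ring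
        _ ≤ M1 * (M1 * r) * |(n : ℝ)| := by
            refine mul_le_mul_of_nonneg_right ?_ hn0
            exact mul_le_mul h3 h4 (abs_nonneg _) hM10.le
        _ = M1 ^ 2 * r * |(n : ℝ)| := by ring
        _ ≤ Λ / 2 * |(n : ℝ)| := mul_le_mul_of_nonneg_right hr2 hn0
    rw [norm_mul]
    calc ‖fc P (wdd T h₁ h₂) n‖ * ‖ex P n (T.X z)‖
        ≤ (B * Real.exp (-(Λ * |(n : ℝ)|))) * Real.exp (Λ / 2 * |(n : ℝ)|) :=
          mul_le_mul (hc n) (h1.trans (Real.exp_le_exp.2 h2)) (norm_nonneg _)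
            (by positivity)
      _ = B * Real.exp (-(Λ / 2 * |(n : ℝ)|)) := by
          rw [mul_assoc, ← Real.exp_add]; congr 2; ring
  have hsum : Summable fun n : ℤ => B * Real.exp (-(Λ / 2 * |(n : ℝ)|)) :=
    (summable_exp_abs (by positivity)).mul_left _
  have hO := U6.isOpen_strip r
  refine ⟨fun z => T.lam z * ∑' n : ℤ, fc P (wdd T h₁ h₂) n * ex P n (T.X z), ?_, ?_, ?_⟩
  · refine DifferentiableOn.mul (T.dlam.mono fun z hz => (geo z hz).1) ?_
    refine Complex.differentiableOn_tsum_of_summable_norm hsum (fun n => ?_) hO term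
    intro z hz
    have hX : DifferentiableAt ℂ T.X z := (T.dX z (geo z hz).1).differentiableAt
    have : DifferentiableAt ℂ (fun z => fc P (wdd T h₁ h₂) n * ex P n (T.X z)) z := by
      unfold ex
      exact (((hX.const_mul _).div_const _).cexp).const_mul _
    exact this.differentiableWithinAt
  · intro z hz
    rw [norm_mul]
    refine mul_le_mul (T.b0 z (geo z hz).1) ?_ (norm_nonneg _) hM10.le
    rw [← tsum_mul_left]
    exact tsum_of_norm_bounded hsum.hasSum fun n => term n z hz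
  · intro x
    have hfs : Summable fun n : ℤ => ‖fc P (wdd T h₁ h₂) n‖ :=
      Summable.of_nonneg_of_le (fun n => norm_nonneg _) hc ((summable_exp_abs hΛ).mul_left _)
    have h1 := fc_sum hP (wdd_cont T s1 s2) (wdd_per T p1 p2) hfs (T.X x).re
    have h2 : (((T.X x).re : ℝ) : ℂ) = T.X x := r9_conj_of_real (r9_X_real T x)
    rw [h2] at h1
    simp only
    rw [h1.tsum_eq]
    have e1 := r9_df_eq T h₁ x
    have e2 := r9_df_eq T h₂ x
    unfold wdd
    rw [mul_sub, ← e1, ← e2]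
    unfold df
    push_cast
    ring

theorem stF : StF := by
  intro η β M hη hβ hM
  obtain ⟨M1, βT, K, e1, hM1, hβT, hK, he1, he11, tab⟩ := table β M hβ hM
  obtain ⟨e0, Λ, K3, he0, he01, hΛ, hK3, dec⟩ := decay M1 βT K M η hM1 hβT hK hM hη
  have hM10 : 0 < M1 := by linarith only [hM1]
  have hM0 : 0 < M := by linarith only [hM]
  obtain ⟨r, hr⟩ : ∃ r, r = min (βT / M1) (Λ / 2 / M1 ^ 2) := ⟨_, rfl⟩
  have hr0 : 0 < r := by rw [hr]; positivity
  have hr1 : M1 * r ≤ βT := by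
    have : r ≤ βT / M1 := by rw [hr]; exact min_le_left _ _
    rw [le_div_iff₀ hM10] at this
    linarith only [this]
  have hr2 : M1 ^ 2 * r ≤ Λ / 2 := by
    have : r ≤ Λ / 2 / M1 ^ 2 := by rw [hr]; exact min_le_right _ _
    rw [le_div_iff₀ (by positivity)] at this
    linarith only [this]
  obtain ⟨Z, hZ⟩ : ∃ Z, Z = ∑' n : ℤ, Real.exp (-(Λ / 2 * |(n : ℝ)|)) := ⟨_, rfl⟩
  have hZ0 : 0 ≤ Z := by rw [hZ]; exact tsum_nonneg fun n => (Real.exp_pos _).le
  obtain ⟨em, hem⟩ : ∃ em, em = min e0 e1 := ⟨_, rfl⟩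
  have hem0 : 0 < em := by rw [hem]; positivity
  have hC0 : 0 ≤ M1 * (K3 * Z) + 2 * M / em := by positivity
  refine ⟨min r β, M1 * (K3 * Z) + 2 * M / em, by positivity, hC0, ?_⟩
  intro h₁ h₂ S1 S2 col1 col2 b hb
  have hb0 : 0 ≤ b := (abs_nonneg _).trans (hb 0)
  have s1 := S1.contDiff hβ
  have s2 := S2.contDiff hβ
  rcases hb0.eq_or_lt with hbz | hbp
  · -- the two tables are equal
    refine ⟨fun _ => 0, differentiableOn_const _, fun z _ => ?_, fun x => ?_⟩
    · rw [norm_zero]; positivity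
    · have h1 := hb x
      rw [← hbz] at h1
      have h2 : h₁ x - h₂ x = 0 := abs_nonpos_iff.1 h1
      rw [← ofReal_sub, h2, ofReal_zero]
  have q1 := S1.rad_pos hM
  have q2 := S2.rad_pos hM
  obtain ⟨p1, r1, H₁, d1, b1, x1⟩ := id S1
  obtain ⟨p2, r2, H₂, d2, b2, x2⟩ := id S2
  by_cases hbe : b ≤ em
  · -- small difference
    have hbe0 : b ≤ e0 := hbe.trans (by rw [hem]; exact min_le_left _ _)
    have hbe1 : b ≤ e1 := hbe.trans (by rw [hem]; exact min_le_right _ _)
    obtain ⟨P, T, hTD, cl1, cl2⟩ := tab h₁ h₂ S1 S2 b hbp hbe1 hb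
    have hc := dec P T h₁ h₂ s1 s2 p1 p2 q1 q2 col1 col2 b hbp hbe0 hb cl1 cl2
      (fun z => H₁ z - H₂ z) ?_ ?_ ?_ ?_
    · obtain ⟨G, g1, g2, g3⟩ := recon T s1.continuous s2.continuous p1 p2 hΛ
        (by positivity : 0 ≤ K3 * b) hr0 hr1 hr2 hc
      refine ⟨G, g1.mono (U6.strip_mono (min_le_left _ _)), fun z hz => ?_, g3⟩
      have h1 := g2 z (lt_of_lt_of_le hz (min_le_left _ _))
      rw [← hZ] at h1
      have h2 : 0 ≤ 2 * M / em * b := by positivity
      have h3 : M1 * (K3 * b * Z) = M1 * (K3 * Z) * b := by ring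
      rw [add_mul]
      linarith only [h1, h2, h3]
    · exact DifferentiableOn.sub (DifferentiableOn.mono d1 hTD) (DifferentiableOn.mono d2 hTD)
    · intro z hz
      have hz' := hTD z hz
      have a1 := ext_per hβ d1 x1 p1 z hz'
      have a2 := ext_per hβ d2 x2 p2 z hz'
      have e3 : z + 2 * Real.pi = z + ((2 * Real.pi : ℝ) : ℂ) := by push_cast; rfl
      simp only [e3, a1, a2]
    · intro z hz
      have hz' := hTD z hz
      exact (norm_sub_le _ _).trans (by linarith only [b1 z hz', b2 z hz'])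
    · intro x
      show H₁ x - H₂ x = _
      rw [x1, x2, ofReal_sub]
  · -- large difference
    push Not at hbe
    refine ⟨fun z => H₁ z - H₂ z, ?_, fun z hz => ?_, fun x => ?_⟩
    · have hsub : strip (min r β) ⊆ strip β := U6.strip_mono (min_le_right _ _)
      exact DifferentiableOn.sub (DifferentiableOn.mono d1 hsub) (DifferentiableOn.mono d2 hsub)
    · have hz' : |z.im| < β := lt_of_lt_of_le hz (min_le_right _ _)
      have h1 : ‖H₁ z - H₂ z‖ ≤ 2 * M :=
        (norm_sub_le _ _).trans (by linarith only [b1 z hz', b2 z hz'])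
      have h2 : 2 * M ≤ 2 * M / em * b := by
        rw [div_mul_eq_mul_div, le_div_iff₀ hem0]
        exact mul_le_mul_of_nonneg_left hbe.le (by positivity)
      have h3 : 0 ≤ M1 * (K3 * Z) * b := by positivity
      rw [add_mul]
      linarith only [h1, h2, h3]
    · show H₁ x - H₂ x = _
      rw [x1, x2]

end Vale.Agent.P097.FD
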