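import Mathlib
import Vale.Agent.P097.FD.Defs

/-!
# P097 / FD, block [R]: uniform approximation of a `C^∞`-bounded class by entire functions

The constants of the approximation theorem and of the bound for the Fourier coefficients of high
frequency depend only on the sequence of bounds of the derivatives.
-/

attribute [-instance] ProperSMul.toContinuousSMul IsTopologicalTorsor.toContinuousSMul IdemSemiring.toCanonicallyOrderedAdd IdemSemiring.toMulLeftMono IdemSemiring.toMulRightMono AddQuantale.instAddLeftMono AddQuantale.instAddRightMono Quantale.instMulLeftMono Quantale.instMulRightMono FiniteDimensional.rclike_to_real IsScalarTower.complexToReal FiniteDimensional.complexToReal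

set_option linter.all false

namespace Vale.Agent.P097.FD

open Complex MeasureTheory Vale.Agent.P097.Reg
open scoped ComplexConjugate ContDiff

/-- smooth periodic functions with derivatives bounded by the sequence `A` -/
def Cl (A : ℕ → ℝ) (h : ℝ → ℝ) : Prop :=
  ContDiff ℝ ∞ h ∧ (∀ x, h (x + 2 * Real.pi) = h x) ∧ ∀ i x, |deriv^[i] h x| ≤ A i

theorem Cl.nonneg {A : ℕ → ℝ} {h : ℝ → ℝ} (H : Cl A h) (i : ℕ) : 0 ≤ A i :=
  (abs_nonneg _).trans (H.2.2 i 0)

theorem cf_decay_u {A : ℕ → ℝ} {f : ℝ → ℝ} (H : Cl A f) (i k : ℕ) (m : ℤ) :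
    |(m : ℝ)| ^ k * ‖R4.cf (deriv^[i] f) m‖ ≤ A (i + k) := by
  rw [R4.norm_cf_iter H.1 H.2.1]
  exact R4.cf_le (H.2.2 _) m

/-- the sum of `1 / m ^ 2` over the integers -/
noncomputable def Z2 : ℝ := ∑' m : ℤ, 1 / (m : ℝ) ^ 2

theorem Z2_nonneg : 0 ≤ Z2 := tsum_nonneg fun m => by positivity

theorem cf_sum_u {A : ℕ → ℝ} {f : ℝ → ℝ} (H : Cl A f) (i : ℕ) :
    ∑' m : ℤ, ‖R4.cf (deriv^[i] f) m‖ ≤ A i + A (i + 2) * Z2 := by
  have hs1 : HasSum (fun m : ℤ => if m = 0 then A i else 0) (A i) := by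
    have := hasSum_ite_eq (0 : ℤ) (A i)
    simpa using this
  have hs2 : HasSum (fun m : ℤ => A (i + 2) * (1 / (m : ℝ) ^ 2)) (A (i + 2) * Z2) :=
    R4.summable_sq.hasSum.mul_left _
  refine (R4.cf_summable H.1 H.2.1 i).hasSum.tsum_eq ▸ ?_
  refine hasSum_le (fun m => ?_) (R4.cf_summable H.1 H.2.1 i).hasSum (hs1.add hs2)
  by_cases hm : m = 0
  · subst hm
    have h1 := R4.cf_le (H.2.2 i) 0
    simpa using h1
  · have hm' : (0 : ℝ) < (m : ℝ) ^ 2 := by positivity
    have h1 := cf_decay_u H i 2 m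
    rw [sq_abs] at h1
    simp only [hm, if_false, zero_add]
    rw [mul_one_div, le_div_iff₀ hm', mul_comm]
    exact h1

open R4 in
theorem tail_u {A : ℕ → ℝ} {f : ℝ → ℝ} (H : Cl A f) (i N : ℕ) (n : ℕ) (hn : 1 ≤ n) (x : ℝ) :
      |deriv^[i] f x - (deriv^[i] (tp (cf f) n) x).re| ≤ A (i + (N + 2)) * Z2 / (n : ℝ) ^ N := by
  obtain ⟨hf, hp, -⟩ := id H
  obtain ⟨B, hB0, hB, hBe⟩ : ∃ B : ℝ, 0 ≤ B ∧
      (∀ m : ℤ, |(m : ℝ)| ^ (N + 2) * ‖cf (deriv^[i] f) m‖ ≤ B) ∧ B = A (i + (N + 2)) :=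
    ⟨_, H.nonneg _, cf_decay_u H i (N + 2), rfl⟩
  unfold Z2
  rw [← hBe]
  · have hn0 : (0:ℝ) < n := by exact_mod_cast hn
    have hinv := inversion (hf.iterate_deriv i).continuous (per_iter hp i) (cf_summable hf hp i) x
    set s := Finset.Icc (-(n : ℤ)) n with hsdef
    have hG : deriv^[i] (tp (cf f) n) x
        = ∑ m ∈ s, cf (deriv^[i] f) m * exp (I * m * x) := by
      rw [tp_iter]
      unfold tp
      apply Finset.sum_congr rfl
      intro m _
      rw [cf_iter hf hp]
    have h1 : HasSum (fun m : ℤ => if m ∈ s then cf (deriv^[i] f) m * exp (I * m * x) else 0)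
        (∑ m ∈ s, cf (deriv^[i] f) m * exp (I * m * x)) := by
      have : HasSum (fun m : ℤ => if m ∈ s then cf (deriv^[i] f) m * exp (I * m * x) else 0)
          (∑ m ∈ s, if m ∈ s then cf (deriv^[i] f) m * exp (I * m * x) else 0) :=
        hasSum_sum_of_ne_finset_zero (fun m hm => by simp [hm])
      convert this using 1
      apply Finset.sum_congr rfl
      intro m hm
      simp [hm]
    have h2 := hinv.sub h1
    rw [← hG] at h2
    have h3 : ∀ m : ℤ, ‖cf (deriv^[i] f) m * exp (I * m * x)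
        - (if m ∈ s then cf (deriv^[i] f) m * exp (I * m * x) else 0)‖
        ≤ B / (n : ℝ) ^ N * (1 / (m : ℝ) ^ 2) := by
      intro m
      split_ifs with hm
      · rw [sub_self, norm_zero]
        (clear * - hB0 hn; positivity)
      · rw [sub_zero, norm_mul]
        have he : ‖exp (I * m * x)‖ = 1 := by
          rw [norm_exp]
          simp
        rw [he, mul_one]
        have hmn : (n : ℝ) ≤ |(m : ℝ)| := by
          have : (n : ℤ) ≤ |m| := by
            by_contra hcon
            push Not at hcon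
            apply hm
            rw [hsdef, Finset.mem_Icc]
            rw [abs_lt] at hcon
            omega
          exact_mod_cast this
        have hm0 : (0:ℝ) < |(m : ℝ)| := hn0.trans_le hmn
        have hb := hB m
        rw [pow_add, sq_abs] at hb
        have hm2 : (0:ℝ) < (m : ℝ) ^ 2 := by rw [← sq_abs]; (clear * - hm0; positivity)
        rw [div_mul_div_comm, mul_one, le_div_iff₀ (by (clear * - hn hm2; positivity))]
        calc ‖cf (deriv^[i] f) m‖ * ((n : ℝ) ^ N * (m : ℝ) ^ 2)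
            ≤ ‖cf (deriv^[i] f) m‖ * (|(m : ℝ)| ^ N * (m : ℝ) ^ 2) := by (clear * - hn hmn hm2; gcongr)
          _ ≤ B := by linarith only [hb]
    have h4 := tsum_of_norm_bounded ((summable_sq.mul_left (B / (n : ℝ) ^ N)).hasSum) h3
    rw [h2.tsum_eq, tsum_mul_left] at h4
    have h5 : |deriv^[i] f x - (deriv^[i] (tp (cf f) n) x).re|
        ≤ ‖((deriv^[i] f x : ℝ) : ℂ) - deriv^[i] (tp (cf f) n) x‖ := by
      have := abs_re_le_norm (((deriv^[i] f x : ℝ) : ℂ) - deriv^[i] (tp (cf f) n) x)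
      rwa [sub_re, ofReal_re] at this
    calc _ ≤ _ := h5
      _ ≤ _ := h4
      _ = _ := by ring

theorem exists_approx_u (A : ℕ → ℝ) : ∃ C0 : ℝ, 1 ≤ C0 ∧ ∀ N : ℕ, ∃ CN : ℝ, 1 ≤ CN ∧
    ∀ h : ℝ → ℝ, Cl A h →
      ∀ n : ℕ, 1 ≤ n → ∃ G : ℂ → ℂ, Differentiable ℂ G ∧ (∀ z, G (conj z) = conj (G z)) ∧
        (∀ z, G (z + 2 * Real.pi) = G z) ∧
        (∀ i ≤ 5, ∀ z : ℂ, |z.im| ≤ 1 / n → ‖deriv^[i] G z‖ ≤ C0) ∧
        (∀ i ≤ 2, ∀ x : ℝ, |deriv^[i] h x - (deriv^[i] G x).re| ≤ CN / (n : ℝ) ^ N) := by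
  refine ⟨1 + ∑ i ∈ Finset.range 6, Real.exp 1 * (|A i| + |A (i + 2)| * Z2), ?_, ?_⟩
  · have : 0 ≤ ∑ i ∈ Finset.range 6, Real.exp 1 * (|A i| + |A (i + 2)| * Z2) :=
      Finset.sum_nonneg fun i _ => mul_nonneg (Real.exp_pos _).le
        (add_nonneg (abs_nonneg _) (mul_nonneg (abs_nonneg _) Z2_nonneg))
    linarith only [this]
  · intro N
    have hC0 : ∀ i, 0 ≤ |A (i + (N + 2))| * Z2 := fun i => mul_nonneg (abs_nonneg _) Z2_nonneg
    refine ⟨1 + ∑ i ∈ Finset.range 3, |A (i + (N + 2))| * Z2, ?_, fun h hh n hn => ?_⟩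
    · have : 0 ≤ ∑ i ∈ Finset.range 3, |A (i + (N + 2))| * Z2 :=
        Finset.sum_nonneg fun i _ => hC0 i
      linarith only [this]
    · refine ⟨R4.tp (R4.cf h) n, fun z => (R4.tp_hasDerivAt _ n z).differentiableAt,
        R4.tp_conj (R4.cf_conj h) n, R4.tp_per _ n, ?_, ?_⟩
      · intro i hi z hz
        rw [R4.tp_iter]
        have e : (fun m : ℤ => (I * m) ^ i * R4.cf h m) = R4.cf (deriv^[i] h) := by
          ext m; rw [R4.cf_iter hh.1 hh.2.1]
        rw [e]
        have h1 := R4.tp_norm (R4.cf_summable hh.1 hh.2.1 i) hn hz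
        have h3 := cf_sum_u hh i
        have h4 : A i + A (i + 2) * Z2 ≤ |A i| + |A (i + 2)| * Z2 :=
          add_le_add (le_abs_self _) (mul_le_mul_of_nonneg_right (le_abs_self _) Z2_nonneg)
        have h5 : Real.exp 1 * ∑' m : ℤ, ‖R4.cf (deriv^[i] h) m‖ ≤
            Real.exp 1 * (|A i| + |A (i + 2)| * Z2) :=
          mul_le_mul_of_nonneg_left (h3.trans h4) (Real.exp_pos _).le
        have h2 := Finset.single_le_sum (s := Finset.range 6)
          (f := fun i => Real.exp 1 * (|A i| + |A (i + 2)| * Z2))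
          (fun j _ => mul_nonneg (Real.exp_pos _).le
            (add_nonneg (abs_nonneg _) (mul_nonneg (abs_nonneg _) Z2_nonneg)))
          (Finset.mem_range.mpr (by omega : i < 6))
        linarith only [h1, h2, h5]
      · intro i hi x
        have h1 := tail_u hh i N n hn x
        have h2 := Finset.single_le_sum (s := Finset.range 3)
          (f := fun i => |A (i + (N + 2))| * Z2) (fun j _ => hC0 j)
          (Finset.mem_range.mpr (by omega : i < 3))
        have hn0 : (0:ℝ) < n := by exact_mod_cast hn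
        have h4 : A (i + (N + 2)) * Z2 ≤ |A (i + (N + 2))| * Z2 :=
          mul_le_mul_of_nonneg_right (le_abs_self _) Z2_nonneg
        refine h1.trans ?_
        apply div_le_div_of_nonneg_right _ (by positivity)
        linarith only [h2, h4]

theorem coef_tail_u (A : ℕ → ℝ) (M0 : ℝ) (N : ℕ) : ∃ C : ℝ, 1 ≤ C ∧ ∀ h : ℝ → ℝ, Cl A h →
    ∀ (M β P : ℝ) (T : CTab M β P), M ≤ M0 →
      ∀ n : ℤ, C ≤ β ^ 2 * |(n : ℝ)| → ‖fc P (wd T h) n‖ ≤ C / |(n : ℝ)| ^ N := by
  obtain ⟨C0, hC0, happ⟩ := exists_approx_u A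
  obtain ⟨CN, hCN, happ⟩ := happ (2 * N)
  set K : ℝ := max M0 1 with hK
  have hK1 : 1 ≤ K := le_max_right _ _
  have hK0 : 0 < K := by linarith
  set B : ℝ := K * (C0 + K) with hB
  have hB0 : 0 ≤ B := by (clear * - hC0; positivity)
  set A1 : ℝ := B * ((2 * N).factorial * K ^ (4 * N)) with hA1
  set A2 : ℝ := K * CN * 4 ^ N with hA2
  have hA1' : 0 ≤ A1 := by (clear * - hC0; positivity)
  have hA2' : 0 ≤ A2 := by positivity
  refine ⟨4 + A1 + A2, by linarith only [hA1', hA2'], ?_⟩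
  intro h hh M β P T hM n hn
  obtain ⟨hs, hp, -⟩ := id hh
  have hMK : M ≤ K := hM.trans (le_max_left _ _)
  have hM0 : 0 < M := by linarith only [T.M1]
  have hβ0 := T.β0
  have hβ1 := T.β1
  have hP0 := T.P0
  set a : ℝ := |(n : ℝ)| with ha
  have ha0 : 0 ≤ a := abs_nonneg _
  have ha4 : 4 ≤ β ^ 2 * a := by linarith only [hA1', hA2', hn]
  have hβ2 : β ^ 2 ≤ 1 := by nlinarith only [hβ1, hβ0]
  have ha1 : 4 ≤ a := by nlinarith only [hA1', hA2', hn, ha0, hβ2]
  -- the square root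
  set r : ℝ := Real.sqrt a with hr
  have hr2 : r ^ 2 = a := Real.sq_sqrt ha0
  have hr0 : 0 ≤ r := Real.sqrt_nonneg _
  have hr_ge : 2 ≤ r := by
    by_contra hlt
    rw [not_le] at hlt
    nlinarith only [hr2, hlt, ha1, hr0]
  have hβr : 2 ≤ β * r := by
    by_contra hlt
    rw [not_le] at hlt
    have : (β * r) ^ 2 < 2 ^ 2 := by
      apply pow_lt_pow_left₀ hlt (by (clear * - hβ0 ha1; positivity)) (by norm_num)
    rw [mul_pow, hr2] at this
    linarith only [hA1', hA2', hn, this]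
  set m : ℕ := ⌊r⌋₊ with hm
  have hm_le : (m : ℝ) ≤ r := Nat.floor_le hr0
  have hm_lt : r < m + 1 := Nat.lt_floor_add_one r
  have hm1 : 1 ≤ m := by
    apply Nat.one_le_iff_ne_zero.2
    intro h0
    rw [h0] at hm_lt
    norm_num at hm_lt
    linarith only [hr_ge, hm_lt]
  have hm1' : (1 : ℝ) ≤ m := by exact_mod_cast hm1
  have hm0 : (0 : ℝ) < m := by linarith only [hr_ge, hm_lt]
  have hr2m : r ≤ 2 * m := by linarith only [hr_ge, hm_lt]
  have hβm : 1 ≤ β * m := by nlinarith only [hβ1, hβr, hβ0, hm_lt]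
  obtain ⟨G, hGd, hGc, hGp, hGb, hGa⟩ := happ h hh m hm1
  -- the narrow strip
  set b : ℝ := 1 / (K * m) with hb
  have hb0 : 0 < b := by (clear * - hm1; positivity)
  have hbβ : b ≤ β := by
    rw [hb, div_le_iff₀ (by (clear * - hm1; positivity))]
    linarith only [mul_nonneg (sub_nonneg.2 hK1) (sub_nonneg.2 hβm), hβm, hK1]
  have hsub : strip b ⊆ strip β := by
    intro ζ hζ
    exact lt_of_lt_of_le hζ hbβ
  -- the analytic part
  set L : ℂ → ℂ := fun ζ => (G (T.z ζ) - T.G (T.z ζ)) * (T.lam (T.z ζ))⁻¹ with hL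
  have hzd : DifferentiableOn ℂ T.z (strip β) := fun ζ hζ =>
    (T.dz ζ hζ).differentiableAt.differentiableWithinAt
  have hzm : Set.MapsTo T.z (strip β) T.D := fun ζ hζ => T.zD ζ hζ
  have hlamd : DifferentiableOn ℂ (fun ζ => (T.lam (T.z ζ))⁻¹) (strip β) := by
    apply DifferentiableOn.inv (T.dlam.comp hzd hzm)
    intro ζ hζ
    exact (R8.inv_lam_le T (T.zD ζ hζ)).1
  have hLd : DifferentiableOn ℂ L (strip β) := by
    apply DifferentiableOn.mul _ hlamd
    apply DifferentiableOn.sub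
    · exact hGd.comp_differentiableOn hzd
    · exact T.dG.comp hzd hzm
  have hLp : ∀ ζ ∈ strip b, L (ζ + P) = L ζ := by
    intro ζ hζ
    simp only [hL]
    have hD := T.zD ζ (hsub hζ)
    rw [R8.z_per T (hsub hζ), hGp, T.pG _ hD, T.plam _ hD]
  have hLb : ∀ ζ ∈ strip b, ‖L ζ‖ ≤ B := by
    intro ζ hζ
    have hD := T.zD ζ (hsub hζ)
    have him : |(T.z ζ).im| ≤ 1 / m := by
      have h1 := R8.im_z T (hsub hζ)
      have h2 : |ζ.im| ≤ b := le_of_lt hζ
      calc |(T.z ζ).im| ≤ M * |ζ.im| := h1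
        _ ≤ K * b := by
          apply mul_le_mul hMK h2 (abs_nonneg _) hK0.le
        _ = 1 / m := by rw [hb]; (clear * - hK1 hm1; field_simp)
    have h1 : ‖G (T.z ζ)‖ ≤ C0 := by
      have := hGb 0 (by norm_num) (T.z ζ) him
      simpa only [ge_iff_le, Function.iterate_zero, id_eq] using this
    have h2 : ‖T.G (T.z ζ)‖ ≤ K := (T.bG _ hD).trans hMK
    have h3 : ‖(T.lam (T.z ζ))⁻¹‖ ≤ K := (R8.inv_lam_le T hD).2.trans hMK
    simp only [hL]
    rw [norm_mul]
    calc ‖G (T.z ζ) - T.G (T.z ζ)‖ * ‖(T.lam (T.z ζ))⁻¹‖ ≤ (C0 + K) * K := by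
          apply mul_le_mul _ h3 (norm_nonneg _) (by linarith only [hC0, hK1])
          exact (norm_sub_le _ _).trans (add_le_add h1 h2)
      _ = B := by rw [hB]; ring
  -- continuity on the reals
  have hcz : Continuous fun x : ℝ => T.z (x : ℂ) := by
    rw [continuous_iff_continuousAt]
    intro x
    have := (T.dz _ (R8.real_mem hβ0 x)).continuousAt
    exact ContinuousAt.comp (f := fun y : ℝ => (y : ℂ)) this Complex.continuous_ofReal.continuousAt
  have hcl : Continuous fun x : ℝ => (T.lam (T.z (x : ℂ)))⁻¹ := by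
    rw [continuous_iff_continuousAt]
    intro x
    have h1 : ContinuousAt (fun ζ => (T.lam (T.z ζ))⁻¹) (x : ℂ) := by
      apply (hlamd.differentiableAt _).continuousAt
      have hopen : IsOpen (strip β) := by
        have : strip β = (fun w : ℂ => |w.im|) ⁻¹' (Set.Iio β) := rfl
        rw [this]
        exact isOpen_Iio.preimage (by fun_prop)
      exact hopen.mem_nhds (R8.real_mem hβ0 x)
    exact ContinuousAt.comp (f := fun y : ℝ => (y : ℂ)) h1 Complex.continuous_ofReal.continuousAt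
  have hcL : Continuous fun x : ℝ => L (x : ℂ) := by
    rw [continuous_iff_continuousAt]
    intro x
    have h1 : ContinuousAt L (x : ℂ) := by
      apply (hLd.differentiableAt _).continuousAt
      have hopen : IsOpen (strip β) := by
        have : strip β = (fun w : ℂ => |w.im|) ⁻¹' (Set.Iio β) := rfl
        rw [this]
        exact isOpen_Iio.preimage (by fun_prop)
      exact hopen.mem_nhds (R8.real_mem hβ0 x)
    exact ContinuousAt.comp (f := fun y : ℝ => (y : ℂ)) h1 Complex.continuous_ofReal.continuousAt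
  -- the remainder
  set Rm : ℝ → ℂ := fun x => ((h (T.z x).re - (G (T.z x)).re : ℝ) : ℂ) * (T.lam (T.z x))⁻¹ with hRm
  have hcR : Continuous Rm := by
    have h1 : Continuous fun x : ℝ => h (T.z (x : ℂ)).re :=
      hs.continuous.comp (Complex.continuous_re.comp hcz)
    have h2 : Continuous fun x : ℝ => (G (T.z (x : ℂ))).re :=
      Complex.continuous_re.comp (hGd.continuous.comp hcz)
    exact (Complex.continuous_ofReal.comp (h1.sub h2)).mul hcl
  have hdec : wd T h = fun x : ℝ => L (x : ℂ) + Rm x := by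
    funext x
    have hz := R8.z_real T x
    have hD := T.zD _ (R8.real_mem hβ0 x)
    have hGre : G (T.z x) = ((G (T.z x)).re : ℂ) := by
      have h1 := hGc (T.z x)
      have h2 : conj (T.z x) = T.z x := by
        rw [hz]; simp
      rw [h2] at h1
      exact (Complex.conj_eq_iff_re.1 h1.symm).symm
    have hTre : T.G (T.z x) = ((T.G (T.z x)).re : ℂ) := by
      have h1 := T.cG _ hD
      have h2 : conj (T.z x) = T.z x := by
        rw [hz]; simp
      rw [h2] at h1
      exact (Complex.conj_eq_iff_re.1 h1.symm).symm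
    simp only [wd, df, hL, hRm]
    rw [div_eq_mul_inv, ← add_mul]
    congr 1
    have hz' : T.G (((T.z x).re : ℝ) : ℂ) = T.G (T.z x) := by rw [← hz]
    rw [hz']
    conv_rhs => rw [hGre, hTre]
    simp only [Complex.ofReal_re]
    push_cast
    ring
  have hRb : ∀ x, ‖Rm x‖ ≤ K * (CN / (m : ℝ) ^ (2 * N)) := by
    intro x
    have hz := R8.z_real T x
    have hD := T.zD _ (R8.real_mem hβ0 x)
    have h1 := hGa 0 (by norm_num) (T.z x).re
    simp only [Function.iterate_zero, id] at h1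
    rw [← hz] at h1
    simp only [hRm]
    rw [norm_mul, Complex.norm_real, mul_comm]
    apply mul_le_mul ((R8.inv_lam_le T hD).2.trans hMK) h1 (abs_nonneg _) hK0.le
  rw [hdec, R8.fc_add hcL hcR]
  have e1 : ‖fc P (fun x : ℝ => L (x : ℂ)) n‖ ≤ A1 / a ^ N := by
    refine (fc_shift hP0 hb0 (hLd.mono hsub) hLp hLb n).trans ?_
    have hPK : P ≤ 2 * Real.pi * K := by
      have := R8.P_le T
      have hpi := Real.pi_pos
      linarith only [mul_nonneg (sub_nonneg.2 hMK) (le_of_lt (sub_pos.2 hpi)), this]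
    have ht : r / K ^ 2 ≤ 2 * Real.pi * |(n : ℝ)| * b / P := by
      rw [← ha, hb, ← hr2]
      rw [div_le_div_iff₀ (by (clear * -; positivity)) hP0]
      have hpi := Real.pi_pos
      have h1 : 2 * Real.pi * r ^ 2 * (1 / (K * m)) * K ^ 2 = 2 * Real.pi * r ^ 2 * K / m := by
        (clear * - hm1 hK1 hr_ge; field_simp)
      rw [h1, le_div_iff₀ hm0]
      calc r * P * m ≤ r * (2 * Real.pi * K) * r := by
            apply mul_le_mul _ hm_le hm0.le (by (clear * - ha1; positivity))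
            exact mul_le_mul_of_nonneg_left hPK hr0
        _ = 2 * Real.pi * r ^ 2 * K := by ring
    have hexp : Real.exp (-(2 * Real.pi * |(n : ℝ)| * b / P)) ≤
        (2 * N).factorial * K ^ (4 * N) / a ^ N := by
      have h1 : Real.exp (-(2 * Real.pi * |(n : ℝ)| * b / P)) ≤ Real.exp (-(r / K ^ 2)) := by
        apply Real.exp_le_exp.2
        linarith only [ht]
      refine h1.trans ?_
      have h2 := Real.pow_div_factorial_le_exp (r / K ^ 2) (by (clear * - ha1; positivity)) (2 * N)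
      rw [Real.exp_neg, inv_le_comm₀ (Real.exp_pos _) (by (clear * - ha1; positivity))]
      refine le_trans (le_of_eq ?_) h2
      rw [div_pow, inv_div, ← hr2]
      have : K ^ (4 * N) = (K ^ 2) ^ (2 * N) := by
        rw [← pow_mul]; congr 1; ring
      rw [this, ← pow_mul]
      have hfac : ((2 * N).factorial : ℝ) ≠ 0 := by positivity
      (clear * - hK1 hfac hr_ge; field_simp)
    calc B * Real.exp (-(2 * Real.pi * |(n : ℝ)| * b / P))
        ≤ B * ((2 * N).factorial * K ^ (4 * N) / a ^ N) := mul_le_mul_of_nonneg_left hexp hB0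
      _ = A1 / a ^ N := by rw [hA1]; ring
  have e2 : ‖fc P Rm n‖ ≤ A2 / a ^ N := by
    refine (R8.fc_le hP0 hRb n).trans ?_
    have h1 : a ^ N ≤ 4 ^ N * (m : ℝ) ^ (2 * N) := by
      rw [pow_mul, ← mul_pow]
      apply pow_le_pow_left₀ ha0
      rw [← hr2]
      nlinarith only [hm_lt, hr_ge]
    rw [hA2, ← mul_div_assoc, div_le_div_iff₀ (by (clear * - hm1; positivity)) (by (clear * - ha1; positivity))]
    calc K * CN * a ^ N ≤ K * CN * (4 ^ N * (m : ℝ) ^ (2 * N)) := by
          apply mul_le_mul_of_nonneg_left h1 (by (clear * - hCN; positivity))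
      _ = K * CN * 4 ^ N * (m : ℝ) ^ (2 * N) := by ring
  calc ‖fc P (fun x : ℝ => L (x : ℂ)) n + fc P Rm n‖ ≤ A1 / a ^ N + A2 / a ^ N :=
        (norm_add_le _ _).trans (add_le_add e1 e2)
    _ = (A1 + A2) / a ^ N := by ring
    _ ≤ (4 + A1 + A2) / a ^ N := by
        apply div_le_div_of_nonneg_right _ (by (clear * - ha1; positivity))
        linarith only []

end Vale.Agent.P097.FD
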