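import Mathlib
import Vale.Agent.P097.FD.R1

/-!
# P097 / FD, block [R]: the Newton step with a constant which is uniform in the class
-/

attribute [-instance] ProperSMul.toContinuousSMul IsTopologicalTorsor.toContinuousSMul IdemSemiring.toCanonicallyOrderedAdd IdemSemiring.toMulLeftMono IdemSemiring.toMulRightMono AddQuantale.instAddLeftMono AddQuantale.instAddRightMono Quantale.instMulLeftMono Quantale.instMulRightMono FiniteDimensional.rclike_to_real IsScalarTower.complexToReal FiniteDimensional.complexToReal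

set_option linter.all false

namespace Vale.Agent.P097.FD

open Complex MeasureTheory Vale.Agent.P097.Reg Vale.Agent.P097
open scoped ComplexConjugate ContDiff

theorem newton_u (A : ℕ → ℝ) (q0 : ℕ) (M0 : ℝ) (hM0 : 1 ≤ M0) :
    ∃ C : ℝ, 1 ≤ C ∧ ∀ h : ℝ → ℝ, Cl A h → (∀ x, 0 < rad h x) → (∀ n, q0 ≤ n → Cst h n) →
      R13.NStep h M0 C := by
  have hpi := Real.pi_pos
  have hpi4 := Real.pi_le_four
  obtain ⟨c1, hc1, H1⟩ := leaf_relation M0 hM0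
  obtain ⟨c2, hc2, H2⟩ := fourier_relation (c1 + 8 * M0) (by linarith)
  obtain ⟨c3, hc3, H3⟩ := coef_tail_u A M0 130
  obtain ⟨c4, hc4, H4⟩ := exists_update M0 hM0
  obtain ⟨c5, hc5, H5⟩ := corr_close M0
  obtain ⟨Z, hZ⟩ : ∃ Z : ℝ, Z = ∑' n : ℤ, 1 / (1 + |(n : ℝ)|) ^ 2 := ⟨_, rfl⟩
  have hZ0 : 0 ≤ Z := by rw [hZ]; exact tsum_nonneg fun n => by (clear * -; positivity)
  obtain ⟨Cq, hCq⟩ : ∃ Cq : ℝ, Cq = 8 * Real.pi * M0 * c1 + 2 * Real.pi * M0 +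
    16 * Real.pi * M0 ^ 2 * c2 + q0 := ⟨_, rfl⟩
  have hCq0 : 0 ≤ Cq := by rw [hCq]; (clear * - hM0 hc1 hc2; positivity)
  obtain ⟨A', hA'⟩ : ∃ A' : ℝ, A' = 2 * (c2 * (1 + c1)) + 1 := ⟨_, rfl⟩
  have hA'1 : 1 ≤ A' := by
    have : 0 ≤ c2 * (1 + c1) := by positivity
    rw [hA']
    linarith only [this]
  obtain ⟨K2, hK2⟩ : ∃ K2 : ℝ, K2 = 2 * (Cq + 1) + 96 * M0 + 1 := ⟨_, rfl⟩
  have hK20 : 0 ≤ K2 := by rw [hK2]; (clear * - hCq0 hM0; positivity)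
  have k1 : 0 ≤ M0 ^ 2 * A' * K2 := by (clear * - hM0 hA'1 hK20; positivity)
  have k2 : 0 ≤ M0 * (Cq + 1) := by (clear * - hM0 hCq0; positivity)
  have k3 : 0 ≤ c5 * (16 * (A' + c3) * Z) := by (clear * - hc5 hA'1 hc3 hZ0; positivity)
  obtain ⟨K0, d1, d2, d3, d4, d5, d6, d7⟩ : ∃ K0 : ℝ, 4 * c1 ≤ K0 ∧ c3 ≤ K0 ∧ M0 ≤ K0 ∧
      c4 ≤ K0 ∧ M0 ^ 2 * A' * K2 ≤ K0 ∧ M0 * (Cq + 1) ≤ K0 ∧
      c5 * (16 * (A' + c3) * Z) ≤ K0 :=
    ⟨4 * c1 + c3 + M0 + c4 + M0 ^ 2 * A' * K2 + M0 * (Cq + 1) + c5 * (16 * (A' + c3) * Z),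
      by linarith only [hM0, hc3, hc4, k1, k2, k3], by linarith only [k3, k2, k1, hc4, hc1, hM0], by linarith, by linarith only [hM0, hc1, hc3, k1, k2, k3], by linarith only [hM0, hc1, hc3, hc4, k2, k3], by linarith only [hM0, hc1, hc3, hc4, k1, k3], by linarith only [hM0, hc1, hc3, hc4, k1, k2]⟩
  refine ⟨16 * (K0 + 8), by linarith only [hc1, d1], ?_⟩
  intro h hh hpos hcst M β P T ε E hM hε hε8 hE hcl hsmall
  obtain ⟨hs, hp, -⟩ := id hh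
  replace H3 := H3 h hh
  have hβ := T.β0
  have hβ1 := T.β1
  have hP := T.P0
  have hMM : M ≤ M0 := by linarith only [hM]
  have hM1 := T.M1
  obtain ⟨hstar, hE1⟩ := r12_star (by linarith only [hc1, d1]) le_rfl hε (by linarith only [hε8]) hβ hβ1 hE hsmall
  obtain ⟨hP1, hP2⟩ := period_bounds T
  have hεβ : 0 < ε * β := by (clear * - hε hβ; positivity)
  have hεβ1 : ε * β ≤ β := by nlinarith only [hβ, hε8]
  obtain ⟨hME, S1, S2, S3, S4, S5⟩ := r12_smalls hMM hM0 hc1 hc3 hc4 k3 d1 d2 d3 d4 d7 hstar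
    hE hE1 hε hε8 hβ hβ1
  obtain ⟨q1, hq1, hq1'⟩ : ∃ q1 : ℕ, Cq * (1 / (ε * β)) ≤ q1 ∧
      (q1 : ℝ) ≤ (Cq + 1) * (1 / (ε * β)) := by
    refine ⟨⌈Cq * (1 / (ε * β))⌉₊, Nat.le_ceil _, ?_⟩
    have h1 := Nat.ceil_lt_add_one (by (clear * - hCq0 hε hβ; positivity) : 0 ≤ Cq * (1 / (ε * β)))
    have hu1 : 1 ≤ 1 / (ε * β) := by
      rw [le_div_iff₀ hεβ]
      linarith only [hβ1, hεβ1]
    linarith only [h1, hu1]
  obtain ⟨Q0, Q1, Q2, Q3⟩ := r12_freq hM0 hc1 hc2 hCq hεβ (hεβ1.trans hβ1) hP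
    (hP2.trans (by (clear * - hMM; gcongr))) hq1
  have hW : ∀ n : ℤ, ‖fc P (wd T h) n‖ * Wg (2 * Real.pi * (β - 2 * (ε * β / 4)) / P)
      (E ^ (-(3 / 2) : ℝ)) q1 n ≤ A' := by
    intro n
    rw [hA']
    refine r12_weights hs hp hcst T hcl hE hE1 hME (by (clear * - hε hβ; positivity)) (by linarith only [hεβ1]) hc1 hc2 hc3
      ?_ ?_ (by linarith only [hM, hM1]) ?_ H2 (fun n hn => H3 M β P T hMM n hn) Q0 Q1 Q2 Q3 S1 S2 S3 n
    · have h1 : M * P ≤ (c1 + 8 * M0) * P := mul_le_mul_of_nonneg_right (by linarith only [hc1, hM, hM1]) hP.le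
      have := Real.two_le_pi
      linarith only [hP1, h1, this]
    · have h1 : 2 * Real.pi * M ≤ 8 * M0 := mul_le_mul (by linarith only [hpi4]) hMM (by linarith only [hM1]) (by norm_num)
      linarith only [hc1, hP2, h1]
    · intro n q hq h1 h2 h3
      exact H1 M β P T hMM h hs hp hpos E (ε * β / 4) n q hq hcl (by (clear * - hε hβ; positivity)) (by linarith only [hβ, hεβ1])
        h1 h2 h3
  obtain ⟨N, hN⟩ : ∃ N : ℕ, N = q1 + ⌊Real.log (E ^ (-(3 / 2) : ℝ)) /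
    (2 * Real.pi * (β - 2 * (ε * β / 4)) / P)⌋₊ := ⟨_, rfl⟩
  have hΛ0 : 0 < 2 * Real.pi * (β - 2 * (ε * β / 4)) / P := by
    have : 0 < β - 2 * (ε * β / 4) := by linarith only [hβ, hεβ1]
    (clear * - this hP; positivity)
  obtain ⟨P1, P2, P3⟩ := corr_props T h hs hp N
  have hbound := r12_corr T hcl hMM hN hA'1 hCq0 hK2 d5 d6 hstar hE hE1 hε hε8 hP1 hP2 hq1' hW P3
  obtain ⟨P', T', hT'1, hT'2⟩ := H4 M β P T (ε * β) (E ^ (ε / 8)) (corr T h N) hM hεβ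
    (by nlinarith only [hε8, hβ]) (Real.rpow_nonneg hE.le _) S4 (P1.mono fun ψ hψ => hψ.1)
    (fun ψ hψ him => ⟨hbound ψ hψ him, (P2 ψ hψ).1, (P2 ψ hψ).2⟩)
  refine ⟨P', T', fun ψ hψ => ⟨(hT'1 ψ hψ).1, ?_⟩, ?_⟩
  · rw [hT'2 ψ hψ, add_sub_cancel_left]
    refine (hbound ψ (hT'1 ψ hψ).1 (hT'1 ψ hψ).2).trans ?_
    refine Real.rpow_le_rpow_of_exponent_ge hE hE1.le ?_
    exact div_le_div_of_nonneg_left hε.le (by norm_num) (by linarith only [hc1, d1])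
  · have hdf : df T' h = fun x : ℝ => df T h x - (corr T h N x).re := by
      funext x
      unfold df
      rw [hT'2 _ (T'.rD x), add_re]
      ring
    obtain ⟨hsm, hR, hfin⟩ := r12_rem (c5 := c5) T hcl hN hZ hA'1 hc3 hE hE1 hME hΛ0 hW
      (fun n hn => H3 M β P T hMM n hn) S2 S5
    have hcc := H5 M β P T hMM h hs hp N _ hsm hR
    intro x
    rw [hdf]
    exact ⟨(hcc x 0 (by norm_num)).trans hfin, (hcc x 1 (by norm_num)).trans hfin,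
      (hcc x 2 le_rfl).trans hfin⟩

end Vale.Agent.P097.FD
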