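import Mathlib
import Vale.Agent.P097.FD.R2

/-!
# P097 / FD, block [R]: a uniform strip for the integrable tables of a smooth class
-/

attribute [-instance] ProperSMul.toContinuousSMul IsTopologicalTorsor.toContinuousSMul IdemSemiring.toCanonicallyOrderedAdd IdemSemiring.toMulLeftMono IdemSemiring.toMulRightMono AddQuantale.instAddLeftMono AddQuantale.instAddRightMono Quantale.instMulLeftMono Quantale.instMulRightMono FiniteDimensional.rclike_to_real IsScalarTower.complexToReal FiniteDimensional.complexToReal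

set_option linter.all false

namespace Vale.Agent.P097.Reg.R13

open Complex Filter Topology Vale.Agent.P097.FD
open scoped ComplexConjugate ContDiff

theorem strip_of_chain {h : ℝ → ℝ} {M0 C K Mb β0 E0 : ℝ} (hMb : Mb + 2 ≤ M0) (hMb1 : 1 ≤ Mb)
    (hC : 1 ≤ C) (hK1 : 1 ≤ K) (hK : ∀ k : ℕ, ((k : ℝ) + 1) ^ 6 ≤ K * (5 / 4 : ℝ) ^ k)
    (hE : 0 < E0) (hb : 0 < β0) (hb1 : β0 ≤ 1)
    (hL : 1000000 * C ^ 2 * K * (1 + Real.log (2 / β0)) ≤ -Real.log E0)
    (f : ℕ → Sg) (h1 : ∀ k, Gd h Mb β0 E0 k (f k))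
    (h2 : ∀ k, ∀ ψ ∈ (f (k + 1)).T.D,
      ψ ∈ (f k).T.D ∧ ‖(f (k + 1)).T.G ψ - (f k).T.G ψ‖ ≤ (EE E0 k) ^ (ee k / C)) :
    ∃ H : ℂ → ℂ, DifferentiableOn ℂ H {z : ℂ | |z.im| < β0 / (4 * M0)} ∧
      (∀ z : ℂ, |z.im| < β0 / (4 * M0) → ‖H z‖ ≤ M0 + ∑' k : ℕ, Real.exp (-(k : ℝ))) ∧
        ∀ x : ℝ, H x = h x := by
  have hβ2 : ∀ k, β0 / 2 ≤ (f k).β := by
    intro k
    have := pp_ge k
    rw [(h1 k).2.1]; (clear * - hb this; nlinarith)
  have hM1 : ∀ k, (f k).M ≤ M0 := by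
    intro k
    have := sum_ee k
    have := (h1 k).1
    (clear C K hMb1 hC hK1 hK hE hb hb1 hL h2 hβ2; linarith)
  set B : Set ℂ := {z : ℂ | |z.im| < β0 / (4 * M0)} with hB
  have hM0 : 1 ≤ M0 := by linarith only [hMb, hMb1]
  have hr : 0 < β0 / (4 * M0) := by (clear * - hb hM0; positivity)
  have hBo : IsOpen B := isOpen_lt (continuous_abs.comp Complex.continuous_im) continuous_const
  have hsub : ∀ k, B ⊆ (f k).T.D := by
    intro k z hz
    refine ball_sub (f k).T (x0 := z.re) (hM1 k) hM0 hb (hβ2 k) ?_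
    rw [Metric.mem_ball, dist_eq_norm]
    have e1 : z - (z.re : ℂ) = (z.im : ℂ) * I := by
      apply Complex.ext <;> simp
    rw [e1, norm_mul, norm_I, mul_one, Complex.norm_real, Real.norm_eq_abs]
    exact hz
  -- the bounds
  have hlogE : Real.log E0 ≤ 0 := by
    have hl : 0 ≤ Real.log (2 / β0) := by
      apply Real.log_nonneg
      rw [le_div_iff₀ hb]; linarith only [hb1]
    have : 0 ≤ 1000000 * C ^ 2 * K * (1 + Real.log (2 / β0)) := by (clear * - hC hK1 hl; positivity)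
    linarith only [hL, this]
  have hE1 : E0 ≤ 1 := by
    by_contra hc
    push Not at hc
    have hl : 0 ≤ Real.log (2 / β0) := by
      apply Real.log_nonneg
      rw [le_div_iff₀ hb]; linarith only [hb1]
    have h3 : 0 < 1000000 * C ^ 2 * K * (1 + Real.log (2 / β0)) := by (clear * - hC hK1 hl; positivity)
    have h4 := Real.log_pos hc
    linarith only [hL, h3, h4]
  have hU : ∀ k, (EE E0 k) ^ (ee k / C) ≤ Real.exp (-(k : ℝ)) := by
    intro k
    have hc := cond hC hK hE hb hb1 hL k (hβ2 k)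
    have hβ1 : (f k).β ≤ 1 := (f k).T.β1
    have hβ0 : 0 < (f k).β := (f k).T.β0
    have h3 : 1 ≤ (1 / (f k).β) ^ C := by
      apply Real.one_le_rpow _ (by linarith only [hC])
      rw [le_div_iff₀ hβ0]; linarith only [hβ1]
    have hp := Real.rpow_pos_of_pos (EE_pos hE k) (ee k / C)
    have h4 : Real.exp (C / ee k ^ 2) * (EE E0 k) ^ (ee k / C) ≤ 1 := by
      refine le_trans ?_ hc
      apply mul_le_mul_of_nonneg_right _ hp.le
      exact le_mul_of_one_le_right (Real.exp_pos _).le h3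
    have h5 : (k : ℝ) ≤ C / ee k ^ 2 := by
      have h6 : C / ee k ^ 2 = 10000 * C * ((k : ℝ) + 1) ^ 4 := by
        unfold ee; field_simp; ring
      rw [h6]
      have hk : (0 : ℝ) ≤ k := Nat.cast_nonneg k
      have h7 : (k : ℝ) + 1 ≤ ((k : ℝ) + 1) ^ 4 := le_self_pow₀ (by linarith only []) (by norm_num)
      nlinarith only [hC, h7]
    have h8 : Real.exp (k : ℝ) * (EE E0 k) ^ (ee k / C) ≤ 1 := by
      refine le_trans ?_ h4
      exact mul_le_mul_of_nonneg_right (Real.exp_le_exp.2 h5) hp.le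
    rw [Real.exp_neg, ← one_div, le_div_iff₀ (Real.exp_pos _), mul_comm]
    exact h8
  have hEE1 : ∀ k, EE E0 k ≤ 1 := by
    intro k
    exact Real.rpow_le_one hE.le hE1 (by positivity)
  have hEk : ∀ k, EE E0 k ≤ Real.exp (-(k : ℝ)) := by
    intro k
    refine le_trans ?_ (hU k)
    have ha : ee k / C ≤ 1 := by
      rw [div_le_one (by linarith only [hC])]
      have := ee_le k
      linarith only [hC, this]
    calc EE E0 k = (EE E0 k) ^ (1 : ℝ) := (Real.rpow_one _).symm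
      _ ≤ (EE E0 k) ^ (ee k / C) :=
        Real.rpow_le_rpow_of_exponent_ge (EE_pos hE k) (hEE1 k) ha
  have hexp : Summable fun k : ℕ => Real.exp (-(k : ℝ)) := Real.summable_exp_neg_nat
  -- the limit
  set F : ℕ → ℂ → ℂ := fun k ψ => (f (k + 1)).T.G ψ - (f k).T.G ψ with hF
  have hFb : ∀ k, ∀ ψ ∈ B, ‖F k ψ‖ ≤ Real.exp (-(k : ℝ)) := fun k ψ hψ =>
    ((h2 k ψ (hsub (k + 1) hψ)).2).trans (hU k)
  have hFd : ∀ k, DifferentiableOn ℂ (F k) B := fun k =>
    ((f (k + 1)).T.dG.mono (hsub (k + 1))).sub ((f k).T.dG.mono (hsub k))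
  have hgd : DifferentiableOn ℂ (fun ψ => (f 0).T.G ψ + ∑' k, F k ψ) B :=
    ((f 0).T.dG.mono (hsub 0)).add
      (Complex.differentiableOn_tsum_of_summable_norm hexp hFd hBo hFb)
  have hlim : ∀ ψ ∈ B, Tendsto (fun n => (f n).T.G ψ) atTop
      (𝓝 ((f 0).T.G ψ + ∑' k, F k ψ)) := by
    intro ψ hψ
    have hs : Summable fun k => F k ψ :=
      Summable.of_norm_bounded hexp (fun k => hFb k ψ hψ)
    have h3 := hs.hasSum.tendsto_sum_nat
    have h4 : ∀ n, ∑ k ∈ Finset.range n, F k ψ = (f n).T.G ψ - (f 0).T.G ψ := by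
      intro n
      simp only [hF]
      exact Finset.sum_range_sub (fun k => (f k).T.G ψ) n
    simp only [h4] at h3
    have h5 := h3.const_add ((f 0).T.G ψ)
    simpa only [add_sub_cancel] using h5
  refine ⟨fun ψ => (f 0).T.G ψ + ∑' k, F k ψ, hgd, fun z hz => ?_, fun x => ?_⟩
  · have e1 : ‖(f 0).T.G z‖ ≤ M0 := ((f 0).T.bG z (hsub 0 hz)).trans (hM1 0)
    have e2 : ‖∑' k, F k z‖ ≤ ∑' k : ℕ, Real.exp (-(k : ℝ)) :=
      tsum_of_norm_bounded hexp.hasSum (fun k => hFb k z hz)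
    exact (norm_add_le _ _).trans (add_le_add e1 e2)
  · have hx : (x : ℂ) ∈ B := by
      show |((x : ℝ) : ℂ).im| < β0 / (4 * M0)
      rw [Complex.ofReal_im, abs_zero]
      exact hr
    have h3 := hlim x hx
    have h4 : Tendsto (fun n => ((f n).T.G x).re) atTop (𝓝 (h x)) := by
      rw [tendsto_iff_norm_sub_tendsto_zero]
      have h5 : Tendsto (fun n : ℕ => Real.exp (-(n : ℝ))) atTop (𝓝 0) :=
        Real.tendsto_exp_neg_atTop_nhds_zero.comp tendsto_natCast_atTop_atTop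
      refine squeeze_zero (fun _ => norm_nonneg _) (fun n => ?_) h5
      have h6 := ((h1 n).2.2 x).1
      unfold df at h6
      rw [Real.norm_eq_abs, abs_sub_comm]
      exact h6.trans (hEk n)
    have h5 : Tendsto (fun n => (f n).T.G x) atTop (𝓝 (h x : ℂ)) := by
      have h6 : Tendsto (fun n => ((((f n).T.G x).re : ℝ) : ℂ)) atTop (𝓝 ((h x : ℝ) : ℂ)) :=
        (Complex.continuous_ofReal.tendsto _).comp h4
      refine h6.congr (fun n => ?_)
      exact (ap_G (f n).T x).symm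
    exact tendsto_nhds_unique h3 h5

theorem core_u (Aq : ℕ → ℝ) (q0 : ℕ) {c : ℝ} (hc : 0 < c) :
    ∃ r M' : ℝ, 0 < r ∧ 1 ≤ M' ∧ ∀ h : ℝ → ℝ, Cl Aq h → (∀ x, c ≤ rad h x) →
      (∀ n, q0 ≤ n → Cst h n) →
      ∃ H : ℂ → ℂ, DifferentiableOn ℂ H {z : ℂ | |z.im| < r} ∧
        (∀ z : ℂ, |z.im| < r → ‖H z‖ ≤ M') ∧ ∀ x : ℝ, H x = h x := by
  obtain ⟨c0, hc0, hcc⟩ : ∃ c0 : ℝ, 0 < c0 ∧ 2 * c0 = c := ⟨c / 2, by linarith only [hc], by ring⟩
  obtain ⟨C0, hC0, hA⟩ := exists_approx_u Aq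
  obtain ⟨M, hM, κ, hκ, b0, hb0, hB⟩ := exists_base C0 c0 hC0 hc0
  obtain ⟨C, hC, hN⟩ := newton_u Aq q0 (M + 2) (by linarith only [hM])
  obtain ⟨K, hK1, hK⟩ := exists_K
  set A : ℝ := 1000000 * C ^ 2 * K with hAdef
  have hA1 : 1 ≤ A := by
    have h1 : 1 ≤ C ^ 2 := by nlinarith only [hC]
    have h2 : 1 ≤ C ^ 2 * K := by nlinarith only [h1, hK1]
    rw [hAdef]; linarith
  obtain ⟨N, hNA⟩ := exists_nat_ge (2 * A)
  have hN1 : 1 ≤ N := by
    have : (1 : ℝ) ≤ N := by linarith only [hA1, hNA]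
    exact_mod_cast this
  obtain ⟨CN, hCN, hA⟩ := hA N
  have hlog : Tendsto (fun n : ℕ => Real.log (n : ℝ)) atTop atTop :=
    Real.tendsto_log_atTop.comp tendsto_natCast_atTop_atTop
  obtain ⟨n, hn1, hn2, hn3, hn4⟩ : ∃ n : ℕ, 1 ≤ n ∧ 1 / b0 ≤ (n : ℝ) ∧ 2 * CN / c0 ≤ (n : ℝ) ∧
      A * (1 + Real.log (2 / κ)) + Real.log CN ≤ Real.log n := by
    have e1 := (tendsto_natCast_atTop_atTop (R := ℝ)).eventually_ge_atTop (1 / b0)
    have e2 := (tendsto_natCast_atTop_atTop (R := ℝ)).eventually_ge_atTop (2 * CN / c0)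
    have e3 := hlog.eventually_ge_atTop (A * (1 + Real.log (2 / κ)) + Real.log CN)
    exact ((eventually_ge_atTop 1).and (e1.and (e2.and e3))).exists
  have hn0 : (1 : ℝ) ≤ n := by exact_mod_cast hn1
  have hnpos : (0 : ℝ) < n := by linarith only [hn0]
  set E0 : ℝ := CN / (n : ℝ) ^ N with hE0
  have hE0pos : 0 < E0 := by rw [hE0]; (clear * - hCN hn1; positivity)
  have hE0c : E0 ≤ c0 / 2 := by
    rw [hE0, div_le_iff₀ (by positivity)]
    have h1 : (n : ℝ) ≤ (n : ℝ) ^ N := le_self_pow₀ hn0 (by omega)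
    rw [div_le_iff₀ hc0] at hn3
    calc CN ≤ c0 / 2 * n := by linarith only [hn3]
      _ ≤ c0 / 2 * (n : ℝ) ^ N := mul_le_mul_of_nonneg_left h1 (by linarith only [hc0])
  refine ⟨(κ * (1 / n)) / (4 * (M + 2)), (M + 2) + ∑' k : ℕ, Real.exp (-(k : ℝ)),
    by (clear * - hM hκ hnpos; positivity),
    by
      have : 0 ≤ ∑' k : ℕ, Real.exp (-(k : ℝ)) := tsum_nonneg fun k => (Real.exp_pos _).le
      linarith only [hM, this], ?_⟩
  intro h hh hlow hcst
  obtain ⟨hs, hp, -⟩ := id hh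
  rw [← hcc] at hlow
  have hpos : ∀ x, 0 < rad h x := fun x => by have := hlow x; linarith only [this, hc0]
  replace hN := hN h hh hpos hcst
  obtain ⟨G, hG1, hG2, hG3, hG4, hG5⟩ := hA h hh n hn1
  have hrad : ∀ x : ℝ, c0 ≤ (G x + deriv (deriv G) x).re := by
    intro x
    have h1 := hG5 0 (by norm_num) x
    have h2 := hG5 2 le_rfl x
    have h3 := hlow x
    simp only [Function.iterate_zero, id_eq] at h1
    have e2 : deriv^[2] h x = deriv (deriv h) x := rfl
    have e2' : deriv^[2] G x = deriv (deriv G) x := rfl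
    rw [e2, e2'] at h2
    rw [abs_le] at h1 h2
    unfold rad at h3
    rw [add_re]
    linarith only [hE0c, h1, h2, h3]
  obtain ⟨P, T, hTG, -⟩ := hB (1 / n) (by (clear * - hn1; positivity))
    (by rw [div_le_iff₀ hnpos]; rw [div_le_iff₀ hb0] at hn2; linarith only [hn2]) G hG1 hG2 hG3 hG4 hrad
  have hb := T.β0
  have hb1 := T.β1
  have hL : 1000000 * C ^ 2 * K * (1 + Real.log (2 / (κ * (1 / n)))) ≤ -Real.log E0 := by
    rw [← hAdef]
    have e1 : 2 / (κ * (1 / (n : ℝ))) = (2 / κ) * n := by (clear * - hn1 hκ; field_simp)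
    have e2 : Real.log (2 / κ * n) = Real.log (2 / κ) + Real.log n :=
      Real.log_mul (by positivity) (by (clear * - hn1; positivity))
    have e3 : Real.log E0 = Real.log CN - N * Real.log n := by
      rw [hE0, Real.log_div (by positivity) (by positivity), Real.log_pow]
    rw [e1, e2, e3]
    have hl0 : 0 ≤ Real.log (n : ℝ) := Real.log_nonneg hn0
    have h1 : 2 * A * Real.log n ≤ N * Real.log n := mul_le_mul_of_nonneg_right hNA hl0
    have h2 : Real.log n ≤ A * Real.log n := le_mul_of_one_le_left hl0 hA1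
    (clear * - hn4 h1 h2; linarith)
  -- closeness
  have hclose : Close T h E0 := by
    have hdf : df T h = fun x : ℝ => h x - (G x).re := by
      funext x; unfold df; rw [hTG]
    have hh1 : ∀ x, HasDerivAt h (deriv h x) x := fun x =>
      (hs.differentiable (by norm_num) x).hasDerivAt
    have hh2 : ∀ x, HasDerivAt (deriv h) (deriv (deriv h) x) x := fun x =>
      ((contDiff_deriv hs).differentiable (by norm_num) x).hasDerivAt
    have hG' : Differentiable ℂ (deriv G) := hG1.deriv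
    have hg1 : ∀ x : ℝ, HasDerivAt (fun x : ℝ => (G x).re) (deriv G x).re x := fun x =>
      (hG1 x).hasDerivAt.real_of_complex
    have hg2 : ∀ x : ℝ, HasDerivAt (fun x : ℝ => (deriv G x).re) (deriv (deriv G) x).re x :=
      fun x => (hG' x).hasDerivAt.real_of_complex
    have hd1 : deriv (df T h) = fun x : ℝ => deriv h x - (deriv G x).re := by
      funext x
      rw [hdf]
      exact ((hh1 x).sub (hg1 x)).deriv
    have hd2 : deriv (deriv (df T h)) = fun x : ℝ => deriv (deriv h) x - (deriv (deriv G) x).re := by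
      funext x
      rw [hd1]
      exact ((hh2 x).sub (hg2 x)).deriv
    intro x
    rw [hd2, hd1, hdf]
    exact ⟨hG5 0 (by norm_num) x, hG5 1 (by norm_num) x, hG5 2 le_rfl x⟩
  let s0 : Sg := ⟨M, κ * (1 / n), P, T⟩
  have h0 : Gd h M (κ * (1 / n)) E0 0 s0 := by
    refine ⟨by simp [s0], by simp only [one_div, pp, Finset.range_zero, Finset.prod_empty, mul_one, s0], ?_⟩
    have : EE E0 0 = E0 := by unfold EE; simp
    rw [this]; exact hclose
  obtain ⟨f, hf1, hf2⟩ := exists_chain hN le_rfl hC hK hE0pos hb hb1 hL s0 h0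
  exact strip_of_chain le_rfl hM hC hK1 hK hE0pos hb hb1 hL f hf1 hf2

end Vale.Agent.P097.Reg.R13

namespace Vale.Agent.P097.FD

open Complex Vale.Agent.P097
open scoped ComplexConjugate ContDiff

/-- block [R]: a class of integrable tables which is bounded in `C^∞` has a uniform strip of
analyticity -/
theorem stR : StR := by
  intro η c A hη hc
  obtain ⟨q0, hq0⟩ := exists_nat_gt (Real.pi / η)
  obtain ⟨r, M', hr, hM', H⟩ := Reg.R13.core_u A q0 hc
  refine ⟨r, max M' (1 / c), hr, hM'.trans (le_max_left _ _), ?_⟩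
  rintro h ⟨hs, hp, hlow, hA⟩ hC
  have hpos : ∀ x, 0 < rad h x := fun x => lt_of_lt_of_le hc (hlow x)
  have hcl : Cl A h := ⟨hs, hp, fun i x => by
    have := hA i x
    rwa [iteratedDeriv_eq_iterate] at this⟩
  obtain ⟨G, hG1, hG2, hG3⟩ := H h hcl hlow (fun n hn θ => by
    refine Reg.mx_const_of_collar_smooth hs hp hpos hC ?_ θ
    have hn' : (q0 : ℝ) ≤ n := by exact_mod_cast hn
    rw [div_lt_iff₀ hη] at hq0
    rw [div_lt_iff₀ (by positivity)]
    linarith only [mul_nonneg hη.le (sub_nonneg.2 hn'), hq0, hη])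
  refine ⟨hp, fun x => ?_, G, hG1, fun z hz => (hG2 z hz).trans (le_max_left _ _), hG3⟩
  have h1 := hlow x
  have h2 : 1 / c * (h x + deriv (deriv h) x) ≤ max M' (1 / c) * (h x + deriv (deriv h) x) :=
    mul_le_mul_of_nonneg_right (le_max_right _ _) (hc.le.trans h1)
  have h3 : 1 ≤ 1 / c * (h x + deriv (deriv h) x) := by
    rw [one_div, ← div_eq_inv_mul, le_div_iff₀ hc]
    linarith only [h1]
  exact h3.trans h2

end Vale.Agent.P097.FD
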